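import Vale.Agent.P247.Ortho.CData
import Vale.Agent.P247.Torus.Basic
import Vale.Agent.P204.Torus.UCurrent

/-!
P247, orthogonalisation: the closed current of class `u` extending a positive current, and its
square integrable limit (adapted from `Vale.Agent.P204.Torus.UCurrent`).
-/

open MeasureTheory Filter Topology Set
open scoped BigOperators ComplexConjugate ENNReal

namespace Vale.Agent.P247.Ortho

open Vale.Agent.P204.Torus

lemma re_qC_cplx (a b : Form) : (qC (cplx a) (cconj (cplx b))).re = q a b := by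
  simp [qC, q, cplx_apply, cconj_apply]

lemma coef_zero_eq {α : V → Form} (hα : Continuous α) : coef α 0 = cplx (Torus.mean α) := by
  ext k
  rw [coef_apply, cplx_apply, coefS]
  have h := (EuclideanSpace.proj (𝕜 := ℝ) k).integral_comp_comm (Torus.integrable_cube hα)
  simp only [PiLp.proj_apply] at h
  rw [Torus.mean, ← h, ← integral_complex_ofReal]
  simp [chr_zero]

/-- The coefficient family of a class. -/
noncomputable def single0 (v : Form) : Freq → CForm := Pi.single 0 (cplx v)

lemma single0_apply (v : Form) (ξ : Freq) : single0 v ξ = if ξ = 0 then cplx v else 0 := by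
  simp [single0, Pi.single_apply]

lemma hasSum_single0 (v : Form) {α : V → Form} (hα : Continuous α) :
    HasSum (fun ξ => (qC (single0 v ξ) (cconj (coef α ξ))).re) (q v (Torus.mean α)) := by
  rw [← re_qC_cplx, ← coef_zero_eq hα]
  convert hasSum_single (f := fun ξ => (qC (single0 v ξ) (cconj (coef α ξ))).re) (0 : Freq) ?_
    using 1
  · simp [single0]
  · intro ξ hξ
    simp [single0_apply, hξ, qC]

lemma synth_single0 (v : Form) (x : V) : synth (single0 v) x = v := by
  rw [single0, synth_single]
  ext k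
  simp [chr_zero, reF_apply, cplx_apply]

namespace CData

variable {S : Setup} {T : Current S} {u : Form} (D : CData T u)

lemma slimit_of_coef {s : Freq → CForm} (hh : Herm s)
    (hSf : ∀ α, Smooth α → HasSum (fun ξ => (qC (s ξ) (cconj (coef α ξ))).re) (D.Sf α))
    (hzero : cmul S.PPf s = 0)
    (hL : ∀ e, 0 < e → MemLp (D.Se e) 2 (volume.restrict cube))
    (hcoef : ∀ e, 0 < e → coef (D.Se e) = fun ξ => (wgt e (-2) ξ : ℂ) • s ξ) (hb : D.Bounded) :
    Nonempty D.SLimit := by
  obtain ⟨C, ε₀, hε₀, hbd⟩ := hb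
  have hev : ∀ᶠ e in 𝓝[>] (0 : ℝ), 0 < e ∧ e ≤ ε₀ := by
    filter_upwards [self_mem_nhdsWithin, nhdsWithin_le_nhds (Iic_mem_nhds hε₀)] with e h1 h2
    exact ⟨h1, h2⟩
  have hC : 0 ≤ C := (Real.sqrt_nonneg _).trans (hbd ε₀ hε₀ le_rfl)
  have hfin : ∀ A : Finset Freq, ∑ ξ ∈ A, ‖s ξ‖ ^ 2 ≤ C ^ 2 := fun A => by
    have ht : Tendsto (fun e => ∑ ξ ∈ A, ‖(wgt e (-2) ξ : ℂ) • s ξ‖ ^ 2) (𝓝[>] (0 : ℝ))
        (𝓝 (∑ ξ ∈ A, ‖s ξ‖ ^ 2)) := tendsto_finsetSum _ fun ξ _ => by
      have := (((Complex.continuous_ofReal.tendsto 1).comp (tendsto_wgt_one ξ)).smul_const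
        (s ξ)).norm.pow 2
      simpa using this
    refine le_of_tendsto ht ?_
    filter_upwards [hev] with e he
    have hs := parseval_norm (hL e he.1)
    rw [hcoef e he.1] at hs
    refine ((hs.summable.sum_le_tsum A fun _ _ => sq_nonneg _).trans ?_)
    rw [hs.tsum_eq, ← Real.sq_sqrt (show 0 ≤ ∫ x in cube, ‖D.Se e x‖ ^ 2 from
      integral_nonneg fun _ => sq_nonneg _)]
    exact pow_le_pow_left₀ (Real.sqrt_nonneg _) (hbd e he.1 he.2) 2
  have hs2 : Summable fun ξ => ‖s ξ‖ ^ 2 := summable_of_sum_le (fun _ => sq_nonneg _) hfin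
  obtain ⟨f, hfm, -, hf, hfc⟩ := exists_L2 hs2 hh
  have hPf : MemLp (fun x => S.PPf x (f x)) 2 (volume.restrict cube) := memLp_apply S.smooth_PPf hf
  have hPz : ∀ᵐ x ∂volume.restrict cube, piP (S.J x) (f x) = 0 := by
    have h := parseval_norm hPf
    rw [coef_mul S.smooth_PPf hf, hfc, hzero] at h
    have h0 : ∫ x in cube, ‖S.PPf x (f x)‖ ^ 2 = 0 := by
      have := h.tsum_eq
      simpa using this.symm
    filter_upwards [(integral_eq_zero_iff_of_nonneg (fun x => sq_nonneg _) hPf.norm.integrable_sq).1 h0]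
      with x hx
    simpa [Setup.PPf_apply] using hx
  have hPQ : ∀ w : V → Form, MemLp w 2 (volume.restrict cube) →
      PQ s (coef w) = ∫ x in cube, q (f x) (w x) := fun w hw => by rw [← PQ_coef hf hw, hfc]
  have hSfi : ∀ α, Smooth α → D.Sf α = ∫ x in cube, q (f x) (α x) := fun α hα => by
    rw [← (hSf α hα).tsum_eq, ← hPQ α (hα.memLp 2), PQ]
  obtain ⟨c, hc, hq⟩ := S.exists_q_anti
  have hσ : c * SQ s ≤ PQ s s := by
    conv_lhs => rw [← hfc, SQ_coef hf, ← integral_const_mul]
    conv_rhs => rw [← hfc, PQ_coef hf hf]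
    refine integral_mono_ae (hf.norm.integrable_sq.const_mul _) (integrable_q_L2 hf hf) ?_
    filter_upwards [hPz] with x hx
    exact hq x _ hx
  have hdiff : Tendsto (fun e => l2 (fun x => D.Se e x - f x)) (𝓝[>] (0 : ℝ)) (𝓝 0) := by
    have h : Tendsto (fun e => ∑' ξ, ‖(wgt e (-2) ξ : ℂ) • s ξ - s ξ‖ ^ 2) (𝓝[>] (0 : ℝ))
        (𝓝 (∑' _ξ : Freq, (0 : ℝ))) := by
      refine tendsto_tsum_of_dominated_convergence (hs2.mul_left 4) (fun ξ => ?_)
        (Eventually.of_forall fun e ξ => ?_)
      · have := ((((Complex.continuous_ofReal.tendsto 1).comp (tendsto_wgt_one ξ)).smul_const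
          (s ξ)).sub_const (s ξ)).norm.pow 2
        simpa using this
      · rw [Real.norm_of_nonneg (sq_nonneg _)]
        refine (pow_le_pow_left₀ (norm_nonneg _) ((norm_sub_le _ _).trans (add_le_add ?_ le_rfl)) 2).trans_eq
          (show (‖s ξ‖ + ‖s ξ‖) ^ 2 = 4 * ‖s ξ‖ ^ 2 by ring)
        rw [norm_smul, Complex.norm_real, Real.norm_of_nonneg (wgt_pos e _ _).le]
        exact mul_le_of_le_one_left (norm_nonneg _) (wgt_le_one e _)
    have h' := h.sqrt
    rw [tsum_zero, Real.sqrt_zero] at h'
    refine h'.congr' ?_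
    filter_upwards [self_mem_nhdsWithin] with e he
    rw [← sqrt_SQ_coef (f := fun x => D.Se e x - f x) ((hL e he).sub hf),
      coef_sub (hL e he) hf, hcoef e he, hfc]
    rfl
  refine ⟨{ σ := PQ s s
            σ_nonneg := le_trans (mul_nonneg hc.le (SQ_nonneg s)) hσ
            σ_zero := fun h0 α hα => ?_
            σ_lim := ?_
            piP_small := ?_
            Sf_bound := ⟨6 * l2 f, fun α hα => ?_⟩
            Sf_small := fun C δ hδ => ?_
            Se_small := fun C δ hδ => ?_ }⟩
  · have hs0 : s = 0 := eq_zero_of_SQ hs2 (by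
      have : c * SQ s ≤ 0 := h0 ▸ hσ
      exact nonpos_of_mul_nonpos_right this hc)
    refine (hSf α hα).unique ?_
    simp only [hs0, Pi.zero_apply, qC, PiLp.zero_apply, zero_mul, add_zero, Complex.zero_re]
    exact hasSum_zero
  · have h : Tendsto (fun e => ∑' ξ, wgt e (-2) ξ * (wgt e (-2) ξ * (qC (s ξ) (cconj (s ξ))).re))
        (𝓝[>] (0 : ℝ)) (𝓝 (PQ s s)) := by
      refine tendsto_tsum_of_dominated_convergence (hs2.mul_left 6) (fun ξ => ?_)
        (Eventually.of_forall fun e ξ => ?_)
      · simpa using (tendsto_wgt_one ξ).mul ((tendsto_wgt_one ξ).mul_const (qC (s ξ) (cconj (s ξ))).re)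
      · rw [norm_mul, norm_mul, Real.norm_of_nonneg (wgt_pos e _ ξ).le]
        refine (mul_le_of_le_one_left (mul_nonneg (wgt_pos e _ ξ).le (norm_nonneg _))
          (wgt_le_one e ξ)).trans ((mul_le_of_le_one_left (norm_nonneg _) (wgt_le_one e ξ)).trans ?_)
        exact (abs_qC_le _ _).trans_eq (by ring)
    refine h.congr' ?_
    filter_upwards [self_mem_nhdsWithin] with e he
    rw [← (parseval_q (hL e he) (hL e he)).tsum_eq, hcoef e he]
    exact tsum_congr fun ξ => by rw [qC_smul_cconj, qC_cconj_smul]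
  · have h := (cmul_commutator_small S.smooth_PPf hs2).sqrt
    rw [Real.sqrt_zero] at h
    refine h.congr' ?_
    filter_upwards [self_mem_nhdsWithin] with e he
    have he' : (0 : ℝ) < e := he
    have e1 : ∀ ξ, cmul S.PPf (fun l => (wgt e (-2) l : ℂ) • s l) ξ -
        (wgt e (-2) ξ : ℂ) • cmul S.PPf s ξ = coef (fun x => S.PPf x (D.Se e x)) ξ := fun ξ => by
      rw [hzero, Pi.zero_apply, smul_zero, sub_zero, coef_mul S.smooth_PPf (hL e he'), hcoef e he']
    simp only [e1]
    rw [Real.sqrt_div (tsum_nonneg fun _ => sq_nonneg _), Real.sqrt_sq he'.le]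
    congr 1
    exact sqrt_SQ_coef (memLp_apply S.smooth_PPf (hL e he'))
  · have hα' := memLp_apply S.smooth_PMf (hα.memLp 2)
    have h1 : ∫ x in cube, q (f x) (α x) = ∫ x in cube, q (f x) (S.PMf x (α x)) := by
      refine integral_congr_ae ?_
      filter_upwards [hPz] with x hx
      conv_lhs => rw [← piP_add_piM (S.J x) (α x)]
      rw [q_add_right, ← S.q_piP_left, hx, q_zero_left, zero_add]
      rfl
    rw [hSfi α hα, h1]
    refine (abs_integral_q_le hf hα').trans_eq ?_
    simp only [Setup.PMf_apply]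
    ring
  · obtain ⟨η, hη, h⟩ := small_pairing hfm hf C hδ
    exact ⟨η, hη, fun w hw h2 h1 => by rw [hSfi w hw]; exact h w (hw.memLp 2) h2 h1⟩
  · obtain ⟨η, hη, h⟩ := small_pairing hfm hf C (half_pos hδ)
    obtain ⟨e₁, he₁, hd⟩ : ∃ e₁ > 0, ∀ e, 0 < e → e < e₁ →
        l2 (fun x => D.Se e x - f x) < δ / (12 * (max C 0 + 1)) := by
      have := (tendsto_order.1 hdiff).2 (δ / (12 * (max C 0 + 1))) (by positivity)
      obtain ⟨e₁, he₁, h'⟩ := mem_nhdsGT_iff_exists_Ioo_subset.1 this
      exact ⟨e₁, he₁, fun e h1 h2 => h' ⟨h1, h2⟩⟩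
    refine ⟨min η (e₁ / 2), lt_min hη (half_pos he₁), fun e he hle w hwc hwp h2 h1 => ?_⟩
    have hw := memLp_cube hwc hwp 2
    have hsub : MemLp (fun x => D.Se e x - f x) 2 (volume.restrict cube) := (hL e he).sub hf
    have hsplit : ∫ x in cube, q (D.Se e x) (w x) =
        (∫ x in cube, q (D.Se e x - f x) (w x)) + ∫ x in cube, q (f x) (w x) := by
      rw [← integral_add (integrable_q_L2 hsub hw) (integrable_q_L2 hf hw)]
      simp only [q_sub_left, sub_add_cancel]
    rw [hsplit]
    refine (abs_add_le _ _).trans ((add_le_add (abs_integral_q_le hsub hw)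
      (h w hw h2 (h1.trans (min_le_left _ _)))).trans ?_)
    have hlt := hd e he ((hle.trans (min_le_right _ _)).trans_lt (by linarith))
    have hl : l2 w ≤ max C 0 + 1 := h2.trans ((le_max_left C 0).trans (by simp))
    have := mul_le_mul hlt.le hl (Real.sqrt_nonneg _) (by positivity)
    have e2 : 6 * (δ / (12 * (max C 0 + 1)) * (max C 0 + 1)) = δ / 2 := by field_simp; ring
    linarith

end CData

/-- The closed current of class `u` extending `T`; if its regularised anti-invariant part is
bounded, this part is square integrable. -/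
theorem exists_cdata_slimit {S : Setup} (T : Current S) (v : Form)
    (hT : ∀ α, S.ClosedInv α → T.app α = q v (Torus.mean α)) :
    ∃ D : CData T v, D.Bounded → Nonempty D.SLimit := by
  have := T.finite
  obtain ⟨G, CG, hCG, hG⟩ := S.exists_G
  obtain ⟨Mh, hMh, hb⟩ := T.exists_h_bound
  obtain ⟨C₀, hC₀, hsup⟩ := norm_le_N
  have hsub : ∀ α, Smooth α → Smooth fun x => α x - G α x := fun α hα =>
    smooth_sub hα (hG α hα).1
  have hmG : ∀ α, Smooth α → ‖Torus.mean (G α)‖ ≤ CG * N α := fun α hα => by
    refine (norm_integral_le_integral_norm _).trans ((integral_mono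
      (Torus.integrable_cube (hG α hα).1.smooth.continuous).norm (integrable_const (CG * N α))
      (hG α hα).2.2.2.1).trans_eq ?_)
    simp
  have hmb : ∀ α, Smooth α → ‖Torus.mean α‖ ≤ C₀ * N α := fun α hα => by
    refine (norm_integral_le_integral_norm _).trans ((integral_mono
      (Torus.integrable_cube hα.smooth.continuous).norm (integrable_const (C₀ * N α))
      (hsup α hα)).trans_eq ?_)
    simp
  let U : (V → Form) → ℝ := fun α => T.app (fun x => α x - G α x) + q v (Torus.mean (G α))
  have hadd : ∀ α β, Smooth α → Smooth β → U (fun x => α x + β x) = U α + U β := fun α β hα hβ => by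
    have e1 : (fun x => α x + β x - G (fun y => α y + β y) x) =
        fun x => (α x - G α x) + (β x - G β x) := by
      funext x; rw [(hG α hα).2.2.2.2.2.1 β hβ x]; abel
    have e2 : G (fun y => α y + β y) = fun x => G α x + G β x :=
      funext ((hG α hα).2.2.2.2.2.1 β hβ)
    simp only [U]
    rw [e1, e2, T.app_add (hsub α hα) (hsub β hβ), show Torus.mean (fun x => G α x + G β x) =
      Torus.mean (G α) + Torus.mean (G β) from integral_add
        (Torus.integrable_cube (hG α hα).1.smooth.continuous)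
        (Torus.integrable_cube (hG β hβ).1.smooth.continuous), q_add_right]
    ring
  have hsmul : ∀ (a : ℝ) α, Smooth α → U (fun x => a • α x) = a * U α := fun a α hα => by
    have e1 : (fun x => a • α x - G (fun y => a • α y) x) = fun x => a • (α x - G α x) := by
      funext x; rw [(hG α hα).2.2.2.2.2.2 a x, smul_sub]
    have e2 : G (fun y => a • α y) = fun x => a • G α x := funext ((hG α hα).2.2.2.2.2.2 a)
    simp only [U]
    rw [e1, e2, T.app_smul, show Torus.mean (fun x => a • G α x) = a • Torus.mean (G α) from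
      integral_smul a _, q_smul_right]
    ring
  have hinv : ∀ α, Smooth α → (∀ x, piM (S.J x) (α x) = 0) → U α = T.app α := fun α hα h => by
    have e2 : G α = fun _ => (0 : Form) := funext ((hG α hα).2.2.2.2.1 h)
    simp only [U, e2, sub_zero, Torus.mean_const, q_zero_right, add_zero]
  have hclosed : ∀ α, Smooth α → Closed α → U α = q v (Torus.mean α) := fun α hα hc => by
    simp only [U]
    rw [hT _ ⟨hsub α hα, closed_sub hα (hG α hα).1 hc (hG α hα).2.1, fun x => by
      rw [piM_sub, (hG α hα).2.2.1 x, sub_self]⟩, ← q_add_right]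
    congr 1
    rw [show Torus.mean (fun x => α x - G α x) = Torus.mean α - Torus.mean (G α) from
      integral_sub (Torus.integrable_cube hα.smooth.continuous)
        (Torus.integrable_cube (hG α hα).1.smooth.continuous)]
    abel
  -- the functional killing all closed forms
  let U0 : (V → Form) → ℝ := fun α => U α - q v (Torus.mean α)
  have hbd : ∀ α, Smooth α → |U0 α| ≤
      (6 * Mh * (C₀ + CG) * T.ν.real univ + 6 * ‖v‖ * (CG + C₀)) * N α := fun α hα => by
    have h1 := norm_integral_le_of_norm_le_const (μ := T.ν)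
      (f := fun y => q (T.h y) (α y - G α y)) (C := 6 * Mh * ((C₀ + CG) * N α))
      (Eventually.of_forall fun y => by
        refine (abs_q_le _ _).trans ?_
        rw [mul_assoc]
        gcongr
        · exact hb y
        · refine (norm_sub_le _ _).trans ?_
          rw [add_mul]
          exact add_le_add (hsup α hα y) ((hG α hα).2.2.2.1 y))
    have h2 := (abs_q_le v (Torus.mean (G α))).trans
      (mul_le_mul_of_nonneg_left (mul_le_mul_of_nonneg_left (hmG α hα) (norm_nonneg v)) (by norm_num))
    have h3 := (abs_q_le v (Torus.mean α)).trans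
      (mul_le_mul_of_nonneg_left (mul_le_mul_of_nonneg_left (hmb α hα) (norm_nonneg v)) (by norm_num))
    rw [Real.norm_eq_abs] at h1
    simp only [U0, U, Current.app]
    refine (abs_sub _ _).trans ((add_le_add ((abs_add_le _ _).trans (add_le_add h1 h2)) h3).trans ?_)
    exact le_of_eq (by ring)
  have hadd0 : ∀ α β, Smooth α → Smooth β → U0 (fun x => α x + β x) = U0 α + U0 β :=
    fun α β hα hβ => by
    simp only [U0]
    rw [hadd α β hα hβ, show Torus.mean (fun x => α x + β x) = Torus.mean α + Torus.mean β from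
      integral_add (Torus.integrable_cube hα.smooth.continuous)
        (Torus.integrable_cube hβ.smooth.continuous), q_add_right]
    ring
  have hsmul0 : ∀ (a : ℝ) α, Smooth α → U0 (fun x => a • α x) = a * U0 α := fun a α hα => by
    simp only [U0]
    rw [hsmul a α hα, show Torus.mean (fun x => a • α x) = a • Torus.mean α from
      integral_smul a _, q_smul_right]
    ring
  obtain ⟨u0, C, huh0, hu0, hsum0, hex⟩ := functional_coef (U := U0)
    (by positivity) hadd0 hsmul0 hbd
  obtain ⟨h0, hnull0, hform⟩ := hex fun α hα hc => by simp only [U0, hclosed α hα hc, sub_self]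
  set u : Freq → CForm := fun ξ => u0 ξ + single0 v ξ with hudef
  have hz : ∀ ξ, ξ ≠ 0 → u ξ = u0 ξ := fun ξ hξ => by simp [hudef, single0_apply, hξ]
  have hu00 : u 0 = cplx v := by simp [hudef, h0, single0]
  have huh : Herm u := fun ξ => by
    rcases eq_or_ne ξ 0 with rfl | hξ
    · ext k; simp [hu00, cconj_apply, cplx_apply]
    · rw [hz ξ hξ, hz _ (neg_ne_zero.2 hξ), huh0 ξ]
  have hC : 0 ≤ C := nonneg_of_mul_nonneg_left ((norm_nonneg _).trans (hu0 0)) (wt_pos 0)
  have hu : ∀ ξ, ‖u ξ‖ ≤ (C + ‖v‖) * wt ξ := fun ξ => by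
    refine (norm_add_le _ _).trans ?_
    rw [add_mul]
    refine add_le_add (hu0 ξ) ?_
    rw [single0_apply]
    split_ifs
    · rw [norm_cplx]; exact le_mul_of_one_le_right (norm_nonneg v) (one_le_wt ξ)
    · rw [norm_zero]; have := wt_pos ξ; positivity
  have hsum : ∀ α, Smooth α → HasSum (fun ξ => (qC (u ξ) (cconj (coef α ξ))).re) (U α) :=
    fun α hα => by
    have h := (hsum0 α hα).add (hasSum_single0 v hα.smooth.continuous)
    simp only [U0, sub_add_cancel] at h
    refine h.congr_fun fun ξ => ?_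
    simp only [hudef, qC_add_left, Complex.add_re]
  obtain ⟨M, hM, hm⟩ := T.norm_mc_le'
  set ue : ℝ → Freq → CForm := fun e ξ => (wgt e (-2) ξ : ℂ) • u ξ with hue
  set s : Freq → CForm := fun ξ => u ξ - T.mc ξ with hs
  have hsh : Herm s := fun ξ => by
    ext k; simp [hs, huh ξ, T.mc_herm ξ, cconj_apply]
  have hsb : ∀ ξ, ‖s ξ‖ ≤ (C + ‖v‖ + M) * wt ξ := fun ξ =>
    (norm_sub_le _ _).trans (by rw [add_mul]; exact add_le_add (hu ξ) (hm ξ))
  have hues : ∀ e, 0 < e → Summable fun ξ => ‖ue e ξ‖ := fun e he =>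
    ((summable_wgt he).mul_left (C + ‖v‖)).of_nonneg_of_le (fun _ => norm_nonneg _) fun ξ => by
      rw [hue, norm_smul, Complex.norm_real, Real.norm_of_nonneg (wgt_pos e _ ξ).le]
      exact (mul_le_mul_of_nonneg_left (hu ξ) (wgt_pos e _ ξ).le).trans_eq (by ring)
  have hueh : ∀ e, Herm (ue e) := fun e ξ => by simp only [hue, huh ξ, wgt_neg, cconj_smul_real]
  have hUL : ∀ e, 0 < e → MemLp (synth (ue e)) 2 (volume.restrict cube) := fun e he =>
    memLp_cube (continuous_synth (hues e he)).1 (continuous_synth (hues e he)).2 2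
  have hTL : ∀ e, 0 < e → MemLp (T.reg e) 2 (volume.restrict cube) := fun e he =>
    memLp_cube (T.continuous_reg he).1 (T.continuous_reg he).2 2
  set F : ℝ → V → Form := fun e x => synth (ue e) x - T.reg e x with hFdef
  have hF : ∀ e, 0 < e → MemLp (F e) 2 (volume.restrict cube) := fun e he =>
    (hUL e he).sub (hTL e he)
  have hFc : ∀ e, 0 < e → coef (F e) = fun ξ => (wgt e (-2) ξ : ℂ) • s ξ := fun e he => by
    funext ξ
    rw [hFdef, coef_sub (hUL e he) (hTL e he), Pi.sub_apply, coef_synth (hues e he) (hueh e),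
      T.coef_reg he, hs, smul_sub]
  have hSf : ∀ α, Smooth α →
      HasSum (fun ξ => (qC (s ξ) (cconj (coef α ξ))).re) (U α - T.app α) := fun α hα => by
    refine ((hsum α hα).sub (T.hasSum_app hα)).congr_fun fun ξ => ?_
    simp only [hs, qC, PiLp.sub_apply, Complex.add_re, Complex.sub_re, sub_mul]
    ring
  have hzero : cmul S.PPf s = 0 := by
    refine cmul_PPf_eq_zero S hsb (fun β hβ => ?_) hF hFc
    have hβ' := S.smooth_PPf.apply hβ
    rw [(hSf _ hβ').tsum_eq, hinv _ hβ' (fun x => S.piM_piP x (β x)), sub_self]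
  obtain ⟨Cc, hCc, hcomm⟩ := cmul_commutator S.smooth_PPf (-2)
  have hw0 : ∀ e : ℝ, wgt e (-2) 0 = 1 := fun e => by simp [wgt]
  let D : CData T v :=
    { U := U
      Ue := fun e => synth (ue e)
      add := hadd
      smul := hsmul
      inv := hinv
      closed := hclosed
      Ue_cont := fun e he _ => (continuous_synth (hues e he)).1
      Ue_periodic := fun e he _ => (continuous_synth (hues e he)).2
      Ue_closed := fun e he _ α hα hcl => by
        obtain ⟨hks, hkc, hkcl⟩ := ker_smooth he hα
        have h := hsum _ hks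
        rw [hclosed _ hks (hkcl hcl)] at h
        have hmean : Torus.mean α =
            Torus.mean (fun z => ∫ x in cube, ker e (x - z) • α x) := by
          have h1 := coef_zero_eq hks.smooth.continuous
          rw [hkc 0, hw0, coef_zero_eq hα.smooth.continuous] at h1
          simp only [Complex.ofReal_one, one_smul] at h1
          ext k
          simpa [cplx_apply] using congrArg (fun a : CForm => a k) h1
        rw [hmean, ← PQ_coef (hUL e he) (hα.memLp 2), coef_synth (hues e he) (hueh e), PQ,
          ← h.tsum_eq]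
        exact tsum_congr fun ξ => by simp only [hue, hkc ξ, qC_smul_cconj, qC_cconj_smul]
      Ue_q := fun e he _ => by
        rw [← PQ_coef (hUL e he) (hUL e he), coef_synth (hues e he) (hueh e), PQ,
          tsum_eq_single (0 : Freq) fun ξ hξ => ?_]
        · simp only [hue, hw0, Complex.ofReal_one, one_smul, hu00, re_qC_cplx]
        · simp only [hue, qC_smul_cconj, qC_cconj_smul, hz ξ hξ, hnull0 ξ, Complex.zero_re,
            mul_zero]
      Ue_exact := fun e he _ δ hδ => by
        have hc := coef_synth (hues e he) (hueh e)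
        set c0 : Freq → CForm := fun ξ => (wgt e (-2) ξ : ℂ) • (wgt e (-2) ξ : ℂ) • u0 ξ with hc0
        have hd : Summable fun ξ => ‖c0 ξ‖ :=
          ((summable_wgt he).mul_left C).of_nonneg_of_le (fun _ => norm_nonneg _) fun ξ => by
            rw [hc0, norm_smul, Complex.norm_real, Real.norm_of_nonneg (wgt_pos e _ ξ).le]
            refine (mul_le_of_le_one_left (norm_nonneg _) (wgt_le_one e ξ)).trans ?_
            rw [norm_smul, Complex.norm_real, Real.norm_of_nonneg (wgt_pos e _ ξ).le]
            exact (mul_le_mul_of_nonneg_left (hu0 ξ) (wgt_pos e _ ξ).le).trans_eq (by ring)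
        obtain ⟨η, hη, h⟩ := exact_approx (c := c0) hd
          (fun ξ => by simp only [hc0, huh0 ξ, wgt_neg, cconj_smul_real]) (by simp [hc0, h0])
          (fun ξ => by
            obtain ⟨d, hdd⟩ := hform ξ
            refine ⟨fun i => (wgt e (-2) ξ : ℂ) * ((wgt e (-2) ξ : ℂ) * d i), fun k => ?_⟩
            simp only [hc0, PiLp.smul_apply, smul_eq_mul, hdd k]
            ring) hδ
        refine ⟨η, hη, fun x => ?_⟩
        have hsplit : (fun ξ => (wgt e (-2) ξ : ℂ) • ue e ξ) = fun ξ => c0 ξ + single0 v ξ := by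
          funext ξ
          rcases eq_or_ne ξ 0 with rfl | hξ
          · simp [hue, hc0, hw0, hu00, h0, single0]
          · simp [hue, hc0, hz ξ hξ, single0_apply, hξ]
        have hss : Summable fun ξ => ‖single0 v ξ‖ :=
          summable_of_ne_finset_zero (s := {0}) fun ξ hξ => by
            simp [single0_apply, Finset.notMem_singleton.1 hξ]
        have hadd' : synth (fun ξ => c0 ξ + single0 v ξ) x = synth c0 x + v := by
          conv_rhs => rw [← synth_single0 v x]
          show reL _ = reL _ + reL _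
          rw [← map_add, ← (summable_chr_smul hd x).tsum_add (summable_chr_smul hss x)]
          simp only [smul_add]
        rw [kconv_eq_synth he (continuous_synth (hues e he)).1 (continuous_synth (hues e he)).2
          (by rw [hc]; exact hues e he), hc, hsplit, hadd']
        simpa [sub_add_eq_sub_sub] using h x
      comm := ⟨Cc, 1, one_pos, fun e he he1 => by
        have hP := memLp_apply S.smooth_PPf (hF e he)
        have hsum' := (parseval_norm (hF e he)).summable
        rw [hFc e he] at hsum'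
        obtain ⟨-, h⟩ := hcomm e he he1 s hsum'
        simp only [hzero, Pi.zero_apply, smul_zero, sub_zero] at h
        show l2 (fun x => S.PPf x (F e x)) ≤ Cc * e * l2 (F e)
        rw [← sqrt_SQ_coef hP, ← sqrt_SQ_coef (hF e he), coef_mul S.smooth_PPf (hF e he), hFc e he,
          ← Real.sqrt_sq (show 0 ≤ Cc * e by positivity), ← Real.sqrt_mul (sq_nonneg _)]
        exact Real.sqrt_le_sqrt h⟩ }
  exact ⟨D, D.slimit_of_coef hsh hSf hzero hF hFc⟩

end Vale.Agent.P247.Ortho
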