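import Vale.Agent.P204.Torus.UData
import Vale.Agent.P247.Torus.Defs

/-!
P247, orthogonalisation on the four-torus: the closed current with a prescribed class that extends
a positive current.

A closed form `α` has the class `mean α`, and the current `U` has the class `u`: on closed forms
`U α = q u (mean α)`. The anti-invariant part of `U` is `Sf`, with regularisations `Se`.
-/

open MeasureTheory
open scoped BigOperators

namespace Vale.Agent.P247.Ortho

open Vale.Agent.P204.Torus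

/-- A closed current of class `u` extending the positive current `T`. -/
structure CData {S : Setup} (T : Current S) (u : Form) where
  /-- The functional on smooth two-forms. -/
  U : (V → Form) → ℝ
  /-- Its regularisations. -/
  Ue : ℝ → V → Form
  add : ∀ α β, Smooth α → Smooth β → U (α + β) = U α + U β
  smul : ∀ (a : ℝ) α, Smooth α → U (a • α) = a * U α
  inv : ∀ α, Smooth α → (∀ x, piM (S.J x) (α x) = 0) → U α = T.app α
  closed : ∀ α, Smooth α → Closed α → U α = q u (Torus.mean α)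
  Ue_cont : ∀ ε, 0 < ε → ε ≤ 1 → Continuous (Ue ε)
  Ue_periodic : ∀ ε, 0 < ε → ε ≤ 1 → Periodic (Ue ε)
  Ue_closed : ∀ ε, 0 < ε → ε ≤ 1 → ∀ α, Smooth α → Closed α →
    ∫ x in cube, q (Ue ε x) (α x) = q u (Torus.mean α)
  Ue_q : ∀ ε, 0 < ε → ε ≤ 1 → ∫ x in cube, q (Ue ε x) (Ue ε x) = q u u
  Ue_exact : ∀ ε, 0 < ε → ε ≤ 1 → ∀ δ > 0, ∃ η : V → V, Smooth η ∧
    ∀ x, ‖kconv ε (Ue ε) x - (u + d1 η x)‖ ≤ δ
  comm : ∃ C ε₀, 0 < ε₀ ∧ ∀ ε, 0 < ε → ε ≤ ε₀ →
    l2 (fun x => piP (S.J x) (Ue ε x - T.reg ε x)) ≤ C * ε * l2 (fun x => Ue ε x - T.reg ε x)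

namespace CData

variable {S : Setup} {T : Current S} {u : Form} (D : CData T u)

/-- The anti-invariant part as a functional. -/
noncomputable def Sf (α : V → Form) : ℝ := D.U α - T.app α

/-- The regularised anti-invariant part. -/
noncomputable def Se (ε : ℝ) (x : V) : Form := D.Ue ε x - T.reg ε x

/-- The anti-invariant part has bounded regularisations. -/
def Bounded : Prop :=
  ∃ C ε₀, 0 < ε₀ ∧ ∀ ε, 0 < ε → ε ≤ ε₀ → l2 (D.Se ε) ≤ C

/-- The consequences of square integrability of the anti-invariant part. -/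
structure SLimit where
  /-- The square of the anti-invariant part. -/
  σ : ℝ
  σ_nonneg : 0 ≤ σ
  σ_zero : σ = 0 → ∀ α, Smooth α → D.Sf α = 0
  σ_lim : Filter.Tendsto (fun ε => ∫ x in cube, q (D.Se ε x) (D.Se ε x))
    (nhdsWithin 0 (Set.Ioi 0)) (nhds σ)
  piP_small : Filter.Tendsto (fun ε => l2 (fun x => piP (S.J x) (D.Se ε x)) / ε)
    (nhdsWithin 0 (Set.Ioi 0)) (nhds 0)
  Sf_bound : ∃ C, ∀ α, Smooth α → |D.Sf α| ≤ C * l2 (fun x => piM (S.J x) (α x))
  Sf_small : ∀ C, ∀ δ > 0, ∃ η > 0, ∀ w, Smooth w → l2 w ≤ C → l1 w ≤ η → |D.Sf w| ≤ δ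
  Se_small : ∀ C, ∀ δ > 0, ∃ η > 0, ∀ ε, 0 < ε → ε ≤ η → ∀ w : V → Form, Continuous w →
    Periodic w → l2 w ≤ C → l1 w ≤ η → |∫ x in cube, q (D.Se ε x) (w x)| ≤ δ

end CData

end Vale.Agent.P247.Ortho
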