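import Vale.Agent.P204.Torus.Forms
import Vale.Agent.P247.Torus.Defs

/-!
P247, orthogonalisation: linear algebra of the wedge pairing, of signature `(3, 3)`.
-/

open scoped BigOperators

namespace Vale.Agent.P247.Ortho

open Vale.Agent.P204.Torus

/-- Three forms orthonormal for the wedge pairing. -/
def Orth3 (m : Fin 3 → Form) : Prop := ∀ i j, q (m i) (m j) = if i = j then 1 else 0

/-- The self-dual part. -/
def sdPart : Form →ₗ[ℝ] (Fin 3 → ℝ) where
  toFun α := ![α 0 + α 3, α 1 + α 4, α 2 + α 5]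
  map_add' a b := by
    funext i
    fin_cases i <;> simp <;> ring
  map_smul' r a := by
    funext i
    fin_cases i <;> simp <;> ring

lemma q_nonpos_of_sdPart {v : Form} (h : sdPart v = 0) : q v v ≤ 0 := by
  have h0 : v 0 + v 3 = 0 := by simpa [sdPart] using congrFun h 0
  have h1 : v 1 + v 4 = 0 := by simpa [sdPart] using congrFun h 1
  have h2 : v 2 + v 5 = 0 := by simpa [sdPart] using congrFun h 2
  rw [add_eq_zero_iff_eq_neg'] at h0 h1 h2
  simp only [q, h0, h1, h2]
  nlinarith [mul_self_nonneg (v 0), mul_self_nonneg (v 1), mul_self_nonneg (v 2)]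

/-- There is no four-dimensional positive subspace. -/
lemma Orth3.q_nonpos {m : Fin 3 → Form} (hm : Orth3 m) {r : Form} (hr : ∀ i, q r (m i) = 0) :
    q r r ≤ 0 := by
  by_contra hne
  rw [not_le] at hne
  let Φ : (Fin 4 → ℝ) →ₗ[ℝ] Form :=
    { toFun := fun c => c 0 • m 0 + c 1 • m 1 + c 2 • m 2 + c 3 • r
      map_add' := fun a b => by simp only [Pi.add_apply]; module
      map_smul' := fun s a => by simp only [Pi.smul_apply, smul_eq_mul, RingHom.id_apply]; module }
  obtain ⟨c, hc, hc0⟩ : ∃ c : Fin 4 → ℝ, sdPart (Φ c) = 0 ∧ c ≠ 0 := by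
    obtain ⟨c, hc, hc0⟩ := Submodule.exists_mem_ne_zero_of_ne_bot
      (LinearMap.ker_ne_bot_of_finrank_lt (f := sdPart.comp Φ) (by simp))
    exact ⟨c, hc, hc0⟩
  have h := q_nonpos_of_sdPart hc
  have e : q (Φ c) (Φ c) = c 0 ^ 2 + c 1 ^ 2 + c 2 ^ 2 + c 3 ^ 2 * q r r := by
    show q (c 0 • m 0 + c 1 • m 1 + c 2 • m 2 + c 3 • r)
      (c 0 • m 0 + c 1 • m 1 + c 2 • m 2 + c 3 • r) = _
    simp only [q_add_left, q_add_right, q_smul_left, q_smul_right, hm _ _, q_comm (m _) r, hr]
    simp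
    ring
  rw [e] at h
  have h0 := sq_nonneg (c 0)
  have h1 := sq_nonneg (c 1)
  have h2 := sq_nonneg (c 2)
  have h3 := mul_nonneg (sq_nonneg (c 3)) hne.le
  have k3 : c 3 = 0 := by
    by_contra hk
    have := mul_pos (by positivity : (0 : ℝ) < c 3 ^ 2) hne
    linarith
  refine hc0 (funext fun i => ?_)
  fin_cases i <;> simp [k3] <;> nlinarith

/-- Two vectors orthogonal to `m 1, m 2` in the light cone geometry: if `y` is future timelike and
`x` pairs non-positively with `m 0` and non-negatively with `y`, then `q x x ≤ 0`. -/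
lemma Orth3.q_nonpos_of_future {m : Fin 3 → Form} (hm : Orth3 m) {x y : Form}
    (hx1 : q x (m 1) = 0) (hx2 : q x (m 2) = 0) (hy1 : q y (m 1) = 0) (hy2 : q y (m 2) = 0)
    (hy : 0 ≤ q y y) (hy0 : 0 < q y (m 0)) (hx0 : q x (m 0) ≤ 0) (hxy : 0 ≤ q x y) :
    q x x ≤ 0 := by
  set a := q x (m 0)
  set s := q y (m 0)
  have h := hm.q_nonpos (r := s • x - a • y) fun i => by
    fin_cases i <;> simp [q_sub_left, q_smul_left, hx1, hx2, hy1, hy2, a, s] <;> ring
  simp only [q_sub_left, q_sub_right, q_smul_left, q_smul_right, q_comm y x] at h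
  have h1 : 0 ≤ a ^ 2 * q y y := mul_nonneg (sq_nonneg _) hy
  have h2 : 0 ≤ -a * (s * q x y) := mul_nonneg (by linarith) (mul_nonneg hy0.le hxy)
  have h3 : s ^ 2 * q x x ≤ 0 := by linarith
  exact nonpos_of_mul_nonpos_right h3 (by positivity)

/-- Linear functionals on forms are given by the wedge pairing. -/
lemma exists_q_repr (g : Form →ₗ[ℝ] ℝ) : ∃ w : Form, ∀ v, q w v = g v := by
  refine ⟨WithLp.toLp 2 ![g (EuclideanSpace.single 3 1), g (EuclideanSpace.single 4 1),
    g (EuclideanSpace.single 5 1), g (EuclideanSpace.single 0 1), g (EuclideanSpace.single 1 1),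
    g (EuclideanSpace.single 2 1)], fun v => ?_⟩
  conv_rhs => rw [show v = ∑ i, v i • EuclideanSpace.single i (1 : ℝ) by
    simpa using ((EuclideanSpace.basisFun (Fin 6) ℝ).sum_repr v).symm]
  simp only [Fin.sum_univ_six]
  simp [q]
  ring

end Vale.Agent.P247.Ortho
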