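import Vale.Agent.P204.Torus.Separation
import Vale.Agent.P204.Torus.UCoef
import Vale.Agent.P247.Torus.Segments
import Vale.Agent.P247.Ortho.LinAlg

/-!
P247, orthogonalisation: if no compatible form has the class of the taming form, a positive current
acts on the closed invariant forms through a class orthogonal to three orthonormal constant forms.
-/

open MeasureTheory ProbabilityTheory Set
open scoped BigOperators

namespace Vale.Agent.P247.Ortho

open Vale.Agent.P204.Torus

/-- The hypotheses on the class: `m` is orthonormal, `m 0` is the class of the closed taming form,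
and `m 1`, `m 2` are classes of closed anti-invariant forms. -/
structure ClassSetup (S : Setup) (m : Fin 3 → Form) : Prop where
  orth : Orth3 m
  closed : Closed S.om
  mean_om : Torus.mean S.om = m 0
  anti : ∀ i, i ≠ 0 → ∃ β, Smooth β ∧ Closed β ∧ Torus.mean β = m i ∧
    ∀ x, piP (S.J x) (β x) = 0

/-- Closed invariant forms have classes orthogonal to `m 1` and `m 2`. -/
lemma ClassSetup.perp {S : Setup} {m : Fin 3 → Form} (hm : ClassSetup S m) {α : V → Form}
    (hα : S.ClosedInv α) : q (Torus.mean α) (m 1) = 0 ∧ q (Torus.mean α) (m 2) = 0 := by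
  have h : ∀ i, i ≠ 0 → q (Torus.mean α) (m i) = 0 := fun i hi => by
    obtain ⟨β, hβ, hcβ, hmβ, hz⟩ := hm.anti i hi
    rw [← hmβ, ← Torus.int_q hα.1 hα.2.1 hβ hcβ]
    exact integral_eq_zero_of_ae (Filter.Eventually.of_forall fun x => by
      show q (α x) (β x) = 0
      rw [S.q_inv_piP (hα.2.2 x), hz, q_zero_right])
  exact ⟨h 1 (by decide), h 2 (by decide)⟩

lemma mean_add {α β : V → Form} (hα : Continuous α) (hβ : Continuous β) :
    Torus.mean (fun x => α x + β x) = Torus.mean α + Torus.mean β :=
  integral_add (Torus.integrable_cube hα) (Torus.integrable_cube hβ)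

lemma mean_smul (c : ℝ) (α : V → Form) :
    Torus.mean (fun x => c • α x) = c • Torus.mean α :=
  integral_smul c _

/-- The pairings with closed invariant forms whose class is a multiple of `m0`. -/
noncomputable def classPairings (S : Setup) (m0 : Form) : Submodule ℝ C(S.Base, ℝ) where
  carrier := {f | ∃ α, S.ClosedInv α ∧ (∃ c : ℝ, Torus.mean α = c • m0) ∧
    ∀ p : S.Base, f p = q p.1.2 (α p.1.1)}
  add_mem' := by
    rintro f g ⟨α, hα, ⟨a, ha⟩, hf⟩ ⟨β, hβ, ⟨b, hb⟩, hg⟩
    exact ⟨_, S.closedInv_add hα hβ,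
      ⟨a + b, by rw [mean_add hα.1.smooth.continuous hβ.1.smooth.continuous, ha, hb, add_smul]⟩,
      fun p => by rw [ContinuousMap.add_apply, hf p, hg p, q_add_right]⟩
  zero_mem' := ⟨_, S.closedInv_zero, ⟨0, by simp [Torus.mean]⟩, fun p => by simp [q]⟩
  smul_mem' := by
    rintro c f ⟨α, hα, ⟨a, ha⟩, hf⟩
    exact ⟨_, S.closedInv_smul hα c, ⟨c * a, by rw [mean_smul, ha, smul_smul]⟩, fun p => by
      rw [ContinuousMap.smul_apply, hf p, q_smul_right, smul_eq_mul]⟩

/-- A compatible form pairs positively with the taming form. -/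
lemma q_om_pos {S : Setup} {α : V → Form} (hα : S.Compatible α) (x : V) :
    0 < q (α x) (S.om x) := by
  have hpsd : S.Psd x (α x) := ⟨hα.1.2.2 x, fun u => by
    rcases eq_or_ne u 0 with rfl | hu
    · simp [ev_def]
    · exact (hα.2 x u hu).le⟩
  rw [S.q_inv_piP hpsd.1]
  refine lt_of_le_of_ne (S.q_Om_nonneg hpsd) fun h0 => ?_
  have hz := S.psd_eq_zero hpsd h0.symm
  have hp := hα.2 x (e 0) fun hh => by simpa [e] using congrFun hh 0
  rw [hz, ev_zero] at hp
  exact lt_irrefl _ hp

variable {S : Setup} {m : Fin 3 → Form}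

/-- A measure of normalised positive forms killing the closed invariant forms of class a multiple
of `m 0`. -/
lemma exists_pair_measure (hm : ClassSetup S m)
    (hno : ¬ ∃ α, S.Compatible α ∧ Torus.mean α = m 0) :
    ∃ ρ : Measure (V × Form), IsFiniteMeasure ρ ∧ ρ ≠ 0 ∧
      (∀ᵐ p ∂ρ, p.1 ∈ cube ∧ p ∈ S.Unit1) ∧
      ∀ α, S.ClosedInv α → (∃ c : ℝ, Torus.mean α = c • m 0) → ∫ p, q p.2 (α p.1) ∂ρ = 0 := by
  have : CompactSpace S.Base := isCompact_iff_compactSpace.1 S.isCompact_base
  obtain ⟨μ, hμ, hμ0, hμW⟩ := exists_annihilating_measure (classPairings S (m 0)) fun f hf hpos => by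
    obtain ⟨α, hα, ⟨c, hc⟩, hfα⟩ := hf
    have hcomp := S.compatible_of_pos hα fun p hp => by
      simpa only [hfα ⟨p, hp⟩] using hpos ⟨p, hp⟩
    have hc0 : 0 < c := by
      have h := Torus.integral_cube_pos (f := fun x => q (α x) (S.om x))
        (continuous_q_comp hα.1.smooth.continuous S.om_smooth.smooth.continuous)
        (q_om_pos hcomp)
      rw [Torus.int_q hα.1 hα.2.1 S.om_smooth hm.closed, hc, hm.mean_om, q_smul_left,
        hm.orth 0 0] at h
      simpa using h
    refine hno ⟨fun x => c⁻¹ • α x, ⟨S.closedInv_smul hα _, fun x u hu => ?_⟩, ?_⟩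
    · rw [ev_smul]
      exact mul_pos (inv_pos.2 hc0) (hcomp.2 x u hu)
    · rw [mean_smul, hc, smul_smul, inv_mul_cancel₀ hc0.ne', one_smul]
  set T : S.Base → V × Form := fun p => (red p.1.1, p.1.2)
  have hT : Measurable T :=
    (measurable_red.comp (measurable_fst.comp measurable_subtype_coe)).prodMk
      (measurable_snd.comp measurable_subtype_coe)
  refine ⟨μ.map T, Measure.isFiniteMeasure_map _ _, ?_, ?_, fun α hα hcl => ?_⟩
  · exact fun h => hμ0 ((Measure.map_eq_zero_iff hT.aemeasurable).1 h)
  · have hcube : MeasurableSet cube :=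
      MeasurableSet.univ_pi fun _ => measurableSet_Ico
    refine (ae_map_iff hT.aemeasurable ((measurable_fst hcube).inter
      S.isClosed_unit1.measurableSet)).2 (.of_forall fun p => ⟨red_mem _, ?_, ?_⟩)
    · exact S.periodic_psd p.2.2.1
    · simp only [T, periodic_red S.periodic_Om]
      exact p.2.2.2
  · have hc : Continuous fun p : V × Form => q p.2 (α p.1) :=
      continuous_q_comp continuous_snd (hα.1.smooth.continuous.comp continuous_fst)
    rw [integral_map hT.aemeasurable hc.aestronglyMeasurable]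
    have := hμW ⟨fun p => q p.1.2 (α p.1.1), hc.comp continuous_subtype_val⟩
      ⟨α, hα, hcl, fun p => rfl⟩
    simpa only [T, periodic_red hα.1.periodic, ContinuousMap.coe_mk] using this

/-- A nonzero positive current killing the closed invariant forms of class a multiple of `m 0`. -/
lemma exists_class_current (hm : ClassSetup S m)
    (hno : ¬ ∃ α, S.Compatible α ∧ Torus.mean α = m 0) :
    ∃ T : Current S, T.ν ≠ 0 ∧
      ∀ α, S.ClosedInv α → (∃ c : ℝ, Torus.mean α = c • m 0) → T.app α = 0 := by
  obtain ⟨ρ, hρ, hρ0, hρm, hρa⟩ := exists_pair_measure hm hno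
  obtain ⟨R, hR⟩ := S.exists_bound
  classical
  set κ := ρ.condKernel
  set μf : V → Form := fun y => ∫ w, w ∂κ y
  have hmf : Measurable μf :=
    (StronglyMeasurable.integral_kernel_prod_right' (κ := κ) (f := fun p : V × Form => p.2)
      measurable_snd.stronglyMeasurable).measurable
  set G : Set V := {y | (y, μf y) ∈ S.Unit1}
  have hG : MeasurableSet G := (measurable_id.prodMk hmf) S.isClosed_unit1.measurableSet
  set h : V → Form := fun y => if y ∈ G then μf y else S.unitForm y
  have hh : ∀ y, (y, h y) ∈ S.Unit1 := fun y => by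
    by_cases hy : y ∈ G
    · simp only [h, if_pos hy]; exact hy
    · simp only [h, if_neg hy]; exact S.unitForm_mem y
  have hκ : ∀ᵐ y ∂ρ.fst, ∀ᵐ w ∂κ y, y ∈ cube ∧ (y, w) ∈ S.Unit1 := by
    refine Measure.ae_ae_of_ae_compProd (μ := ρ.fst) (κ := κ)
      (p := fun p : V × Form => p.1 ∈ cube ∧ p ∈ S.Unit1) ?_
    rw [ρ.disintegrate ρ.condKernel]
    exact hρm
  have hint : ∀ᵐ y ∂ρ.fst, Integrable (fun w : Form => w) (κ y) := by
    filter_upwards [hκ] with y hy
    exact Integrable.of_bound aestronglyMeasurable_id R (hy.mono fun w hw => hR (y, w) hw.2)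
  have hmG : ∀ᵐ y ∂ρ.fst, y ∈ G := by
    filter_upwards [hκ, hint] with y hy hi
    refine ⟨⟨(S.inv_iff y _).2 fun u v => ?_, fun u => ?_⟩, ?_⟩
    · have e1 := (evLeft (S.J y u) (S.J y v)).integral_comp_comm hi
      have e2 := (evLeft u v).integral_comp_comm hi
      refine (e1.symm.trans (integral_congr_ae ?_)).trans e2
      filter_upwards [hy] with w hw
      exact (S.inv_iff y w).1 hw.2.1.1 u v
    · refine le_trans ?_ ((evLeft u (S.J y u)).integral_comp_comm hi).le
      exact integral_nonneg_of_ae (hy.mono fun w hw => hw.2.1.2 u)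
    · refine ((qLeft (S.Om y)).integral_comp_comm hi).symm.trans ?_
      refine (integral_congr_ae (g := fun _ => (1 : ℝ)) (hy.mono fun w hw => hw.2.2)).trans ?_
      simp
  refine ⟨⟨ρ.fst, h, inferInstance, ?supp, Measurable.ite hG hmf ?meas, fun y => (hh y).1,
    fun y => (hh y).2⟩, ?ne, fun α hα hcl => ?ann⟩
  case' ne => skip
  · intro h0
    have := congrArg (fun μ => μ univ) h0
    simp only [Measure.fst_univ, Measure.coe_zero, Pi.zero_apply] at this
    exact hρ0 (Measure.measure_univ_eq_zero.1 this)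
  · have hsub : ∀ᵐ y ∂ρ.fst, y ∈ cube := by
      filter_upwards [hκ] with y hy
      exact (hy.exists).choose_spec.1
    exact ae_iff.1 hsub
  · exact ((continuous_q_comp S.continuous_Om S.continuous_Om).measurable.inv).smul
      S.continuous_Om.measurable
  · have hc : Continuous fun p : V × Form => q p.2 (α p.1) :=
      continuous_q_comp continuous_snd (hα.1.smooth.continuous.comp continuous_fst)
    obtain ⟨C, hC⟩ := S.isCompact_base.exists_bound_of_continuousOn hc.continuousOn
    have hi : Integrable (fun p : V × Form => q p.2 (α p.1)) ρ :=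
      Integrable.of_bound hc.aestronglyMeasurable C (hρm.mono fun p hp => hC p
        ⟨⟨⟨fun i => (hp.1 i trivial).1, fun i => (hp.1 i trivial).2.le⟩, trivial⟩, hp.2⟩)
    rw [← hρa α hα hcl, ← Measure.integral_condKernel hi]
    refine integral_congr_ae ?_
    filter_upwards [hmG, hint] with y hy hyi
    simp only [h, if_pos hy]
    exact ((qLeft (α y)).integral_comp_comm hyi).symm

/-- The projection along the three orthonormal forms. -/
noncomputable def proj3 (m : Fin 3 → Form) : Form →ₗ[ℝ] Form where
  toFun v := v - ∑ i, q v (m i) • m i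
  map_add' a b := by simp only [q_add_left, add_smul, Finset.sum_add_distrib]; abel
  map_smul' r a := by simp only [q_smul_left, mul_smul, ← Finset.smul_sum, smul_sub,
    RingHom.id_apply]

lemma proj3_m {m : Fin 3 → Form} (hm : Orth3 m) (i : Fin 3) : proj3 m (m i) = 0 := by
  fin_cases i <;> simp [proj3, Fin.sum_univ_three, hm _ _]

/-- The class of the separating current. -/
theorem exists_current_class (hm : ClassSetup S m)
    (hno : ¬ ∃ α, S.Compatible α ∧ Torus.mean α = m 0) :
    ∃ (T : Current S) (u : Form), T.ν ≠ 0 ∧ (∀ i, q u (m i) = 0) ∧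
      ∀ α, S.ClosedInv α → T.app α = q u (Torus.mean α) := by
  obtain ⟨T, hT, hann⟩ := exists_class_current hm hno
  have := T.finite
  have hker : ∀ α, S.ClosedInv α → proj3 m (Torus.mean α) = 0 → T.app α = 0 := fun α hα h => by
    refine hann α hα ⟨q (Torus.mean α) (m 0), ?_⟩
    obtain ⟨h1, h2⟩ := hm.perp hα
    simpa [proj3, Fin.sum_univ_three, h1, h2, sub_eq_zero] using h
  let P : Submodule ℝ Form :=
    { carrier := {w | ∃ α, S.ClosedInv α ∧ proj3 m (Torus.mean α) = w}
      add_mem' := by
        rintro a b ⟨α, hα, rfl⟩ ⟨β, hβ, rfl⟩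
        exact ⟨_, S.closedInv_add hα hβ,
          by rw [mean_add hα.1.smooth.continuous hβ.1.smooth.continuous, map_add]⟩
      zero_mem' := ⟨_, S.closedInv_zero, by simp [Torus.mean]⟩
      smul_mem' := by
        rintro c a ⟨α, hα, rfl⟩
        exact ⟨_, S.closedInv_smul hα c, by rw [mean_smul, map_smul]⟩ }
  have hwd : ∀ α β, S.ClosedInv α → S.ClosedInv β →
      proj3 m (Torus.mean α) = proj3 m (Torus.mean β) → T.app α = T.app β := by
    intro α β hα hβ h
    have hβ' := S.closedInv_smul hβ (-1)
    have h0 := hker _ (S.closedInv_add hα hβ') (by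
      rw [mean_add hα.1.smooth.continuous hβ'.1.smooth.continuous, mean_smul, map_add, map_smul,
        h]
      simp)
    rw [T.app_add hα.1 hβ'.1, T.app_smul] at h0
    linarith
  have hmem : ∀ w : P, ∃ α, S.ClosedInv α ∧ proj3 m (Torus.mean α) = (w : Form) := fun w => w.2
  choose sec hsec hsec' using hmem
  let f : P →ₗ[ℝ] ℝ :=
    { toFun := fun w => T.app (sec w)
      map_add' := fun a b => by
        rw [← T.app_add (hsec a).1 (hsec b).1]
        refine hwd _ _ (hsec _) (S.closedInv_add (hsec a) (hsec b)) ?_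
        rw [mean_add (hsec a).1.smooth.continuous (hsec b).1.smooth.continuous, map_add, hsec',
          hsec', hsec']
        rfl
      map_smul' := fun c a => by
        rw [RingHom.id_apply, smul_eq_mul, ← T.app_smul]
        refine hwd _ _ (hsec _) (S.closedInv_smul (hsec a) c) ?_
        rw [mean_smul, map_smul, hsec', hsec']
        rfl }
  obtain ⟨g, hg⟩ := f.exists_extend
  obtain ⟨u, hu⟩ := exists_q_repr (g.comp (proj3 m))
  refine ⟨T, u, hT, fun i => ?_, fun α hα => ?_⟩
  · rw [hu, LinearMap.comp_apply, proj3_m hm.orth, map_zero]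
  · rw [hu, LinearMap.comp_apply]
    have h := LinearMap.congr_fun hg ⟨proj3 m (Torus.mean α), α, hα, rfl⟩
    simp only [LinearMap.comp_apply, Submodule.subtype_apply] at h
    rw [h]
    exact hwd _ _ hα (hsec _) (hsec' ⟨_, α, hα, rfl⟩).symm

end Vale.Agent.P247.Ortho
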