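import Vale.Agent.P247.Ortho.Mono
import Vale.Agent.P204.Torus.Vanish

/-!
P247, orthogonalisation: cut-off exact forms are asymptotically annihilated (adapted from
`Vale.Agent.P204.Torus.Vanish`).
-/

open MeasureTheory Filter Topology
open scoped BigOperators

namespace Vale.Agent.P247.Ortho

open Vale.Agent.P204.Torus
open UData (continuous_reg integrable_app fderiv_Th measurable_dir exists_dir_bound
  exists_centre_variation)

namespace CData

variable {S : Setup} {T : Current S} {u : Form} (D : CData T u)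

lemma Sf_closed {α : V → Form} (hα : Smooth α) (cα : Closed α) :
    D.Sf α = q u (Torus.mean α) - T.app α := by
  rw [Sf, D.closed α hα cα]

lemma abs_q_mean_le (v : Form) (F : V → Form) : |q v (Torus.mean F)| ≤ 6 * (‖v‖ * l1 F) := by
  refine (abs_q_le _ _).trans (mul_le_mul_of_nonneg_left (mul_le_mul_of_nonneg_left ?_
    (norm_nonneg _)) (by norm_num))
  exact norm_integral_le_integral_norm _

/-- The weight of the directions of the variation. -/
lemma exists_var_mass (hu : q u u ≤ 0) (hd : T.DensBound) (L : D.SLimit) {η : V → V} (hη : Smooth η) :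
    ∃ K, 0 ≤ K ∧ ∀ k, ∫ p : V × V, (S.th3 (scale k) p.1 p.2 *
      S.B p.2 (T.h p.2) (Setup.vec (T.h p.1) (η p.1)) (Setup.vec (T.h p.1) (η p.1)) + S.th (scale k) p.1 p.2)
        ∂T.ν.prod T.ν ≤ K := by
  obtain ⟨CP, BP, hCP, hBP, hP0, hP⟩ := D.exists_pair_mass hu hd L
  obtain ⟨Cv, hCv, hv⟩ := S.exists_vec_bound
  obtain ⟨Cd, hCd, hdy⟩ := S.exists_th3_dyadic
  obtain ⟨A, hA, hA', -⟩ := D.exists_limit hd L
  obtain ⟨c', C', hc', -, hρ⟩ := S.exists_rho2_bounds
  obtain ⟨N, hN0, hN⟩ := T.exists_h_bound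
  obtain ⟨M, hM0, hM⟩ := exists_bound hη.smooth.continuous hη.periodic
  obtain ⟨KB, hKB, hB⟩ := T.exists_B_bound
  set E := Cv * M ^ 2
  set m := T.ν.real Set.univ
  refine ⟨E * (Cd * (2 * BP)) + (E * Cv / c' + 1) * (A * m),
    by have : 0 ≤ m := measureReal_nonneg; positivity, fun k => ?_⟩
  set r := scale k
  have hr : 0 < r := scale_pos' k
  set P : V × V → ℝ := fun p => q (T.h p.1) (T.h p.2) + CP * dist0 (p.1 - p.2) ^ 2
  set Z : ℕ → V × V → ℝ := fun i p => if dist0 (p.1 - p.2) ≤ scale i then P p / scale i ^ 4 else 0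
  have hPm : Measurable P := T.measurable_qh.add (measurable_const.mul
    ((continuous_dist0.comp (continuous_fst.sub continuous_snd)).pow 2).measurable)
  have hPb : ∀ p, |P p| ≤ 6 * (N * N) + CP := fun p => by
    refine (abs_add_le _ _).trans (add_le_add (T.abs_qh_le hN0.le hN p) ?_)
    rw [abs_mul, abs_of_pos hCP, abs_of_nonneg (sq_nonneg _)]
    exact mul_le_of_le_one_right hCP.le (pow_le_one₀ (dist0_nonneg _) (dist0_le_one _))
  have hZi : ∀ i, Integrable (Z i) (T.ν.prod T.ν) := fun i => by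
    have := scale_pos' i
    refine Integrable.of_bound (Measurable.aestronglyMeasurable (Measurable.ite
      (measurableSet_le (continuous_dist0.comp (continuous_fst.sub continuous_snd)).measurable
        measurable_const) (hPm.div_const _) measurable_const)) ((6 * (N * N) + CP) / scale i ^ 4)
      (Eventually.of_forall fun p => ?_)
    rw [Real.norm_eq_abs]
    simp only [Z]
    split_ifs
    · rw [abs_div, abs_of_pos (pow_pos this 4)]
      gcongr
      exact hPb p
    · rw [abs_zero]; positivity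
  have hth : Integrable (fun p : V × V => S.th r p.1 p.2) (T.ν.prod T.ν) :=
    Integrable.of_bound (S.continuous_th₂ hr).aestronglyMeasurable (1 / r ^ 2)
      (Eventually.of_forall fun p => by
        rw [Real.norm_eq_abs, abs_of_nonneg (S.th_nonneg r _ _)]; exact S.th_le hr _ _)
  have hpt : ∀ p : V × V, S.th3 r p.1 p.2 *
      S.B p.2 (T.h p.2) (Setup.vec (T.h p.1) (η p.1)) (Setup.vec (T.h p.1) (η p.1)) + S.th r p.1 p.2 ≤
      E * (Cd * ∑ i ∈ Finset.range (k + 1), (4 : ℝ) ^ i / 4 ^ k * Z i p) +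
        (E * Cv / c' + 1) * S.th r p.1 p.2 := by
    rintro ⟨y, z⟩
    simp only [Z, P]
    set d := dist0 (y - z) with hd'
    set Pv := q (T.h y) (T.h z) + CP * d ^ 2
    have hw0 := S.th3_nonneg r y z
    have hB1 : S.B z (T.h z) (Setup.vec (T.h y) (η y)) (Setup.vec (T.h y) (η y)) ≤ E * (Pv + Cv * d ^ 2) := by
      have h := (hv y z _ _ (η y) (T.psd y) (T.psd z) (T.trace y) (T.trace z)).2
      have hp := hP0 y z
      have h2 : q (T.h y) (T.h z) + Cv * d ^ 2 ≤ Pv + Cv * d ^ 2 :=
        add_le_add (le_add_of_nonneg_right (by positivity)) le_rfl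
      have h3 : (0 : ℝ) ≤ Pv + Cv * d ^ 2 := by positivity
      refine h.trans ((mul_le_mul_of_nonneg_left h2 (by positivity)).trans ?_)
      refine mul_le_mul_of_nonneg_right ?_ h3
      simp only [E]
      gcongr
      exact hM y
    have hd2 : S.th3 r y z * d ^ 2 ≤ 1 / c' * S.th r y z := by
      have hρ1 := (hρ z (z - y)).1
      have hρ0 := S.rho2_nonneg z (z - y)
      rw [hd', dist0_sub_comm y z]
      have e : S.th r y z = S.th3 r y z * (r ^ 2 + S.rho2 z (z - y)) := by
        simp only [Setup.th, Setup.th3]; field_simp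
      rw [e, one_div, ← mul_assoc, mul_comm c'⁻¹, mul_assoc]
      refine mul_le_mul_of_nonneg_left ?_ hw0
      rw [← div_eq_inv_mul, le_div_iff₀ hc']
      nlinarith [sq_nonneg r]
    have hdy' := hdy k y z Pv (hP0 y z)
    calc S.th3 r y z * S.B z (T.h z) (Setup.vec (T.h y) (η y)) (Setup.vec (T.h y) (η y)) + S.th r y z
        ≤ S.th3 r y z * (E * (Pv + Cv * d ^ 2)) + S.th r y z := by gcongr
      _ = E * (S.th3 r y z * Pv) + E * Cv * (S.th3 r y z * d ^ 2) + S.th r y z := by ring
      _ ≤ E * (Cd * ∑ i ∈ Finset.range (k + 1), (4 : ℝ) ^ i / 4 ^ k *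
            (if d ≤ scale i then Pv / scale i ^ 4 else 0)) +
          E * Cv * (1 / c' * S.th r y z) + S.th r y z := by gcongr
      _ = _ := by ring
  have hint := ((integrable_finsetSum (Finset.range (k + 1))
    fun i _ => (hZi i).const_mul ((4 : ℝ) ^ i / 4 ^ k)).const_mul Cd).const_mul E
  refine (integral_mono_of_nonneg (Eventually.of_forall fun p => add_nonneg
    (mul_nonneg (S.th3_nonneg r _ _) (hB _ _).1) (S.th_nonneg r _ _))
    (hint.add (hth.const_mul _)) (Eventually.of_forall hpt)).trans ?_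
  simp only [Pi.add_apply]
  rw [integral_add hint (hth.const_mul _), integral_const_mul, integral_const_mul,
    integral_const_mul, integral_finsetSum _ fun i _ => (hZi i).const_mul _]
  refine add_le_add (mul_le_mul_of_nonneg_left (mul_le_mul_of_nonneg_left ?_ hCd.le)
    (by positivity)) (mul_le_mul_of_nonneg_left ?_ (by positivity))
  · calc ∑ i ∈ Finset.range (k + 1), ∫ p, (4 : ℝ) ^ i / 4 ^ k * Z i p ∂T.ν.prod T.ν
        ≤ ∑ i ∈ Finset.range (k + 1), (4 : ℝ) ^ i / 4 ^ k * BP := by
          refine Finset.sum_le_sum fun i _ => ?_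
          rw [integral_const_mul, integral_prod _ (hZi i)]
          exact mul_le_mul_of_nonneg_left (hP _ (scale_pos' i) (Mass.scale_le_one i)) (by positivity)
      _ = (4 ^ (k + 1) - 1) / (4 - 1) / 4 ^ k * BP := by
          rw [← Finset.sum_mul, ← Finset.sum_div, geom_sum_eq (by norm_num)]
      _ ≤ 2 * BP := by
          refine mul_le_mul_of_nonneg_right ?_ hBP.le
          rw [div_le_iff₀ (by positivity), pow_succ]
          have : (1 : ℝ) ≤ 4 ^ k := one_le_pow₀ (by norm_num)
          linarith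
  · rw [integral_prod _ hth]
    refine (integral_mono hth.integral_prod_left (integrable_const A) fun y =>
      (hA' r hr (Mass.scale_le_one k) y).1).trans_eq ?_
    rw [integral_const, smul_eq_mul, mul_comm]

/-- Cut-off exact forms are asymptotically annihilated. -/
lemma tendsto_app_cut (hu : q u u ≤ 0) (hd : T.DensBound) (L : D.SLimit) {η : V → V} (hη : Smooth η) {τ : ℝ}
    (hτ : 0 < τ) :
    Tendsto (fun k => T.app fun x => (T.Th (scale k) x / (T.Th (scale k) x + τ)) • d1 η x)
      atTop (𝓝 0) := by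
  obtain ⟨C, hC, hcv⟩ := exists_centre_variation (T := T) hd hη
  obtain ⟨K, hK, hU⟩ := D.exists_var_mass hu hd L hη
  obtain ⟨CR, hR⟩ := T.exists_rad_bound hd
  obtain ⟨Ct, hCt, hth⟩ := S.exists_th_compare
  obtain ⟨Cb, hCb, hvb⟩ := S.exists_var_bound
  obtain ⟨A0, hA0, hA0'⟩ := exists_bound (smooth_d1 hη).smooth.continuous (smooth_d1 hη).periodic
  obtain ⟨Mη, hMη0, hMη⟩ := exists_bound hη.smooth.continuous hη.periodic
  set CW := Ct / τ * A0 + 12 * (Cb / τ * Mη)
  have hI := D.tendsto_transverse hd L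
  rw [Metric.tendsto_atTop]
  intro ε hε
  obtain ⟨η1, hη1, hS1⟩ := L.Sf_small ((CW + C * τ⁻¹) * |CR|) (ε / 4) (by positivity)
  set η2 := min η1 (ε / (8 * (6 * ‖u‖ + 1))) with hη2
  have hη2p : 0 < η2 := lt_min hη1 (by positivity)
  have hη2u : 6 * (‖u‖ * η2) ≤ ε / 8 := by
    have h := min_le_right η1 (ε / (8 * (6 * ‖u‖ + 1)))
    rw [← hη2, le_div_iff₀ (by positivity)] at h
    linarith
  obtain ⟨δ, hδ, hδK⟩ : ∃ δ : ℝ, 0 < δ ∧ C * τ⁻¹ * (δ * K) ≤ ε / 8 :=
    ⟨ε / 8 / (C * τ⁻¹ * (K + 1)), by positivity, by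
      rw [show C * τ⁻¹ * (ε / 8 / (C * τ⁻¹ * (K + 1)) * K) = ε / 8 * (K / (K + 1)) by field_simp]
      exact mul_le_of_le_one_right (by positivity) (div_le_one_of_le₀ (by linarith) (by linarith))⟩
  have hIs := (hI.add tendsto_scale).const_mul (C * τ⁻¹ * δ⁻¹)
  rw [add_zero, mul_zero] at hIs
  have hls := tendsto_scale.const_mul ((CW + C * τ⁻¹) * |CR|)
  rw [mul_zero] at hls
  obtain ⟨k0, hk0⟩ := eventually_atTop.1
    ((hls.eventually (eventually_le_nhds hη2p)).and
      (hIs.eventually (eventually_le_nhds (show (0 : ℝ) < ε / 8 by positivity))))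
  refine ⟨k0, fun k hk => ?_⟩
  obtain ⟨hk1, hk2⟩ := hk0 k hk
  set r := scale k
  have hr : 0 < r := scale_pos' k
  obtain ⟨hThs, hThD⟩ := fderiv_Th (T := T) hr
  obtain ⟨hradc, hrad0, -, hrad1, hrad2⟩ := hR k
  have hpos : ∀ x, 0 < T.Th r x + τ := fun x => add_pos_of_nonneg_of_pos (T.Th_nonneg r x) hτ
  set g : V → ℝ := fun x => T.Th r x / (T.Th r x + τ)
  set c : V → ℝ := fun x => τ / (T.Th r x + τ) ^ 2
  have hgs : Smooth g :=
    ⟨hThs.smooth.div (hThs.smooth.add contDiff_const) fun x => (hpos x).ne',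
      fun x n => by simp only [g, hThs.periodic x n]⟩
  have hgd : ∀ x u, fderiv ℝ g x u = c x * fderiv ℝ (T.Th r) x u := fun x u => by
    have hh : HasDerivAt (fun t => t / (t + τ)) (c x) (T.Th r x) := by
      have := (hasDerivAt_id (T.Th r x)).fun_div ((hasDerivAt_id (T.Th r x)).add_const τ)
        (hpos x).ne'
      refine this.congr_deriv ?_
      simp only [c, id]
      ring
    have h := hh.comp_hasFDerivAt x (hThs.differentiableAt x).hasFDerivAt
    rw [show g = (fun t => t / (t + τ)) ∘ T.Th r from rfl, h.fderiv]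
    simp
  have hcb : ∀ x, |c x| ≤ τ⁻¹ := fun x => by
    rw [abs_of_nonneg (by have := hpos x; positivity), inv_eq_one_div]
    simp only [c]
    rw [div_le_div_iff₀ (pow_pos (hpos x) 2) hτ, one_mul, ← sq]
    exact pow_le_pow_left₀ hτ.le (le_add_of_nonneg_left (T.Th_nonneg r x)) 2
  have hcm : Measurable c :=
    (continuous_const.div ((hThs.smooth.continuous.add continuous_const).pow 2)
      fun x => (pow_pos (hpos x) 2).ne').measurable
  have hP : Smooth fun x => g x • η x :=
    ⟨hgs.smooth.smul hη.smooth, fun x n => by simp only [hgs.periodic x n, hη.periodic x n]⟩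
  set W := d1 fun x => g x • η x
  have hWx : ∀ x, W x = g x • d1 η x + wedge (grad g x) (η x) := fun x =>
    d1_smul (hgs.differentiableAt x) (hη.differentiableAt x)
  obtain ⟨F, hFs, hFc, hFb, hFE⟩ := hcv k c τ⁻¹ hcm hcb δ hδ
  -- the cut-off exact form is small
  have hThrad : ∀ x, T.Th r x ≤ Ct * T.rad r x := fun x => by
    rw [Current.rad, ← integral_const_mul]
    refine integral_mono (T.integrable_th hr x)
      (((T.continuous_rad hr (Mass.scale_le_one k)).2 x).const_mul Ct) fun z => ?_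
    exact (hth r hr x z).1.trans (mul_le_mul_of_nonneg_left
      (le_add_of_nonneg_right (Mass.w'_nonneg r (dist0_nonneg _))) hCt.le)
  have hgrad : ∀ x, ‖grad g x‖ ≤ Cb / τ * T.rad r x := fun x => by
    have := hrad0 x
    refine (pi_norm_le_iff_of_nonneg (by positivity)).2 fun i => ?_
    rw [Real.norm_eq_abs, grad, hgd, abs_mul, show Cb / τ * T.rad r x = τ⁻¹ * (Cb * T.rad r x) by
      ring]
    refine mul_le_mul (hcb x) ?_ (abs_nonneg _) (by positivity)
    rw [(hThD x (e i)).2, Current.rad, ← integral_const_mul]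
    refine (abs_integral_le_integral_abs).trans (integral_mono_of_nonneg
      (Eventually.of_forall fun z => abs_nonneg _)
      (((T.continuous_rad hr (Mass.scale_le_one k)).2 x).const_mul Cb)
      (Eventually.of_forall fun z => ?_))
    have h0 := dist0_nonneg (z - x)
    refine (hvb r hr x (e i) z).2.trans (mul_le_mul (mul_le_of_le_one_right hCb.le (e_norm_le i))
      (le_add_of_nonneg_left (Mass.w_nonneg r _)) (by positivity) hCb.le)
  have hWb : ∀ x, ‖W x‖ ≤ CW * T.rad r x := fun x => by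
    have := hrad0 x
    rw [hWx]
    refine (norm_add_le _ _).trans ?_
    rw [norm_smul, show CW * T.rad r x =
      Ct / τ * A0 * T.rad r x + 12 * (Cb / τ * Mη) * T.rad r x by simp only [CW]; ring]
    refine add_le_add ?_ ((norm_wedge_le _ _).trans ?_)
    · rw [Real.norm_eq_abs, abs_of_nonneg (div_nonneg (T.Th_nonneg r x) (hpos x).le)]
      have h1 : g x ≤ Ct / τ * T.rad r x := by
        calc g x ≤ T.Th r x / τ := div_le_div_of_nonneg_left (T.Th_nonneg r x) hτ
              (le_add_of_nonneg_left (T.Th_nonneg r x))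
          _ ≤ Ct * T.rad r x / τ := div_le_div_of_nonneg_right (hThrad x) hτ.le
          _ = _ := by ring
      calc g x * ‖d1 η x‖ ≤ Ct / τ * T.rad r x * A0 := by
            gcongr
            exact hA0' x
        _ = _ := by ring
    · calc 12 * (‖grad g x‖ * ‖η x‖) ≤ 12 * (Cb / τ * T.rad r x * Mη) := by
            gcongr
            · exact hgrad x
            · exact hMη x
        _ = _ := by ring
  have hCW : 0 ≤ CW := by positivity
  have small : ∀ (Z : V → Form) (a : ℝ), Smooth Z → 0 ≤ a → a ≤ CW + C * τ⁻¹ →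
      (∀ x, ‖Z x‖ ≤ a * T.rad r x) → |D.Sf Z| ≤ ε / 4 ∧ |q u (Torus.mean Z)| ≤ ε / 8 := by
    intro Z a hZ ha0 ha hb
    obtain ⟨h1, h2⟩ := l_mono hradc hrad0 ha0 hb
    have hl1n : 0 ≤ l1 (T.rad r) := integral_nonneg fun x => norm_nonneg _
    have hl : l1 Z ≤ η2 := h1.trans (le_trans (by
      rw [mul_assoc]
      exact mul_le_mul ha (hrad1.trans (mul_le_mul_of_nonneg_right (le_abs_self _) hr.le)) hl1n
        (by positivity)) hk1)
    refine ⟨hS1 Z hZ (h2.trans ?_) (hl.trans (min_le_left _ _)), (abs_q_mean_le u Z).trans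
      (le_trans (by gcongr) hη2u)⟩
    · exact mul_le_mul ha (hrad2.trans (le_abs_self _)) (l2_nonneg _) (by positivity)
  obtain ⟨hW1, -⟩ := small W CW (smooth_d1 hP) hCW (le_add_of_nonneg_right (by positivity)) hWb
  obtain ⟨hF1, hF2⟩ := small F (C * τ⁻¹) hFs (by positivity) (le_add_of_nonneg_left hCW) hFb
  -- the identity
  have hid : T.app W = T.app (fun x => g x • d1 η x) +
      ∫ y, c y * fderiv ℝ (T.Th r) y (Setup.vec (T.h y) (η y)) ∂T.ν := by
    have hs1 : Smooth fun x => g x • d1 η x := ⟨hgs.smooth.smul (smooth_d1 hη).smooth,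
      fun x n => by simp only [hgs.periodic x n, (smooth_d1 hη).periodic x n]⟩
    have hp : ∀ y, c y * fderiv ℝ (T.Th r) y (Setup.vec (T.h y) (η y)) =
        q (T.h y) (W y) - q (T.h y) (g y • d1 η y) := fun y => by
      rw [hWx, q_add_right, add_sub_cancel_left, ← Setup.pair_vec, pair_grad, hgd]
    simp only [Current.app, hp]
    rw [integral_sub (integrable_app (smooth_d1 hP)) (integrable_app hs1)]
    ring
  rw [Real.dist_eq, sub_zero]
  have e1 := D.Sf_closed (smooth_d1 hP) (closed_d1 hP)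
  rw [Torus.mean_d1 hP, q_zero_right, zero_sub] at e1
  have e2 := D.Sf_closed hFs hFc
  have hE : |∫ y, c y * fderiv ℝ (T.Th r) y (Setup.vec (T.h y) (η y)) ∂T.ν + T.app F| ≤ ε / 4 := by
    refine hFE.trans ?_
    calc C * τ⁻¹ * (δ * _ + δ⁻¹ * _) ≤ C * τ⁻¹ * (δ * K + δ⁻¹ *
          (∫ y, ∫ z, S.th3 r y z * S.B z (T.h z) (sv (z - y)) (sv (z - y)) ∂T.ν ∂T.ν + r)) := by
          gcongr
          exact hU k
      _ = C * τ⁻¹ * (δ * K) + C * τ⁻¹ * δ⁻¹ *
          (∫ y, ∫ z, S.th3 r y z * S.B z (T.h z) (sv (z - y)) (sv (z - y)) ∂T.ν ∂T.ν + r) := by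
          ring
      _ ≤ ε / 8 + ε / 8 := add_le_add hδK hk2
      _ = ε / 4 := by ring
  rw [abs_le] at hW1 hF1 hE hF2
  rw [abs_lt]
  constructor <;> linarith


end CData

end Vale.Agent.P247.Ortho
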