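import Vale.Agent.P204.Torus.Energy
import Vale.Agent.P204.Torus.Separation
import Vale.Agent.P204.Torus.Phase2Defs
import Vale.Agent.P204.Torus.UCurrent
import Vale.Agent.P247.Torus.Wedge
import Vale.Agent.P247.Ortho.CCurrent

/-!
P247, orthogonalisation: weighted currents, the energy of a closed current, and a lower bound for
the energy of a positive current.
-/

open MeasureTheory Filter Topology Set
open scoped BigOperators ENNReal

namespace Vale.Agent.P247.Ortho

open Vale.Agent.P204.Torus

variable {S : Setup} (T : Current S)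

/-- The current with measure multiplied by a bounded weight. -/
noncomputable def weighted (g : V → ℝ) (hg : ∀ y, g y ≤ 1) : Current S where
  ν := T.ν.withDensity fun y => ENNReal.ofReal (g y)
  h := T.h
  finite := by
    have := T.finite
    refine isFiniteMeasure_withDensity (ne_top_of_le_ne_top (measure_ne_top T.ν univ) ?_)
    calc ∫⁻ y, ENNReal.ofReal (g y) ∂T.ν ≤ ∫⁻ _, 1 ∂T.ν :=
          lintegral_mono fun y => ENNReal.ofReal_le_one.2 (hg y)
      _ = T.ν univ := lintegral_one
  supp := withDensity_absolutelyContinuous _ _ T.supp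
  meas := T.meas
  psd := T.psd
  trace := T.trace

variable {T} {g : V → ℝ} {hg1 : ∀ y, g y ≤ 1}

lemma weighted_h : (weighted T g hg1).h = T.h := rfl

lemma integral_weighted {E : Type*} [NormedAddCommGroup E] [NormedSpace ℝ E] (hg : Measurable g)
    (hg0 : ∀ y, 0 ≤ g y) (f : V → E) :
    ∫ y, f y ∂(weighted T g hg1).ν = ∫ y, g y • f y ∂T.ν := by
  refine (integral_withDensity_eq_integral_toReal_smul hg.ennreal_ofReal
    (Eventually.of_forall fun y => ENNReal.ofReal_lt_top) f).trans ?_
  simp only [ENNReal.toReal_ofReal (hg0 _)]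

lemma app_weighted (hg : Measurable g) (hg0 : ∀ y, 0 ≤ g y) (α : V → Form) :
    (weighted T g hg1).app α = ∫ y, g y * q (T.h y) (α y) ∂T.ν := by
  simp only [Current.app, integral_weighted hg hg0, weighted_h, smul_eq_mul]

lemma reg_weighted (hg : Measurable g) (hg0 : ∀ y, 0 ≤ g y) (ε : ℝ) :
    (weighted T g hg1).reg ε = T.regW g ε := by
  funext x
  simp only [Current.reg, Current.regW, integral_weighted hg hg0, weighted_h, smul_smul]

/-! ### A current that kills exact forms -/

/-- The class of a current. -/
noncomputable def cls (T : Current S) : Form := ∫ y, T.h y ∂T.ν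

lemma integrable_h (T : Current S) : Integrable T.h T.ν := by
  have := T.finite
  obtain ⟨M, -, hb⟩ := T.exists_h_bound
  exact Integrable.of_bound T.meas.aestronglyMeasurable M (Eventually.of_forall hb)

lemma app_const (T : Current S) (a : Form) : T.app (fun _ => a) = q (cls T) a :=
  (qLeft a).integral_comp_comm (integrable_h T)

/-- A current killing exact forms has the class `cls T` on closed forms. -/
lemma app_closed {T : Current S} (hT : ∀ η, Smooth η → T.app (d1 η) = 0) {α : V → Form}
    (hα : Smooth α) (hc : Closed α) : T.app α = q (cls T) (Torus.mean α) := by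
  obtain ⟨η, hη, h⟩ := (Torus.coh_mean hα hc).symm
  have e : α = fun x => Torus.mean α + d1 η x := funext h
  conv_lhs => rw [e]
  rw [T.app_add (Torus.smooth_const _) (smooth_d1 hη), hT η hη, add_zero, app_const]

lemma mean_re_chr {ξ : Freq} (hξ : ξ ≠ 0) (c : CForm) :
    Torus.mean (synth (Pi.single ξ c)) = 0 := by
  have hd : Rapid (Pi.single ξ c) := rapid_of_finite {ξ} fun η hη => by
    simp [Finset.notMem_singleton.1 hη]
  have h := coef_zero_eq (α := synth (Pi.single ξ c)) (smooth_synth hd).smooth.continuous
  rw [← synth_hermPart hd, coef_synth hd.hermPart.summable (hermPart_herm _),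
    synth_hermPart hd] at h
  have h0 : hermPart (Pi.single ξ c) 0 = 0 := by
    ext k
    simp [hermPart, cconj_apply, hξ.symm]
  rw [h0] at h
  ext k
  have := congrArg (fun a : CForm => a k) h
  simpa [cplx_apply, eq_comm] using (congrArg Complex.re this)

lemma mc_zero (T : Current S) : T.mc 0 = cplx (cls T) := by
  ext k
  have h := (EuclideanSpace.proj (𝕜 := ℝ) k).integral_comp_comm (integrable_h T)
  simp only [PiLp.proj_apply] at h
  rw [cplx_apply, cls, ← h, ← integral_complex_ofReal]
  simp [Current.mc, chr_zero]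

lemma q_reF_mc (T : Current S) (ξ : Freq) (a : Form) :
    q (reF (T.mc ξ)) a = T.app (fun x => (chr ξ x).re • a) ∧
      q (imF (T.mc ξ)) a = -T.app (fun x => (chr ξ x).im • a) := by
  have := T.finite
  obtain ⟨M, -, hb⟩ := T.exists_h_bound
  have hi : ∀ {w : V → ℝ}, Continuous w → (∀ y, |w y| ≤ 1) →
      Integrable (fun y => w y • T.h y) T.ν := fun {w} hw hwb =>
    (integrable_h T).bdd_smul (C := 1) hw.aestronglyMeasurable (Eventually.of_forall fun y => by
      simpa using hwb y)
  have hr : Integrable (fun y => (chr ξ y).re • T.h y) T.ν :=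
    hi (Complex.continuous_re.comp (continuous_chr ξ)) fun y =>
      (Complex.abs_re_le_norm _).trans (norm_chr ξ y).le
  have him : Integrable (fun y => (chr ξ y).im • T.h y) T.ν :=
    hi (Complex.continuous_im.comp (continuous_chr ξ)) fun y =>
      (Complex.abs_im_le_norm _).trans (norm_chr ξ y).le
  have e1 : reF (T.mc ξ) = ∫ y, (chr ξ y).re • T.h y ∂T.ν := by
    ext k
    have h := (EuclideanSpace.proj (𝕜 := ℝ) k).integral_comp_comm hr
    simp only [PiLp.proj_apply] at h
    rw [← h, reF_apply, Current.mc]
    refine ((integral_re (𝕜 := ℂ) ?_).symm).trans (integral_congr_ae (Eventually.of_forall fun y => ?_))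
    · simpa using T.integrable_chr_h (-ξ) k
    · simp [chr_neg]
  have e2 : imF (T.mc ξ) = (-1 : ℝ) • ∫ y, (chr ξ y).im • T.h y ∂T.ν := by
    ext k
    have h := (EuclideanSpace.proj (𝕜 := ℝ) k).integral_comp_comm him
    simp only [PiLp.proj_apply] at h
    rw [PiLp.smul_apply, ← h, smul_eq_mul, ← integral_const_mul]
    show (T.mc ξ k).im = _
    rw [Current.mc]
    refine ((integral_im (𝕜 := ℂ) ?_).symm).trans (integral_congr_ae (Eventually.of_forall fun y => ?_))
    · simpa using T.integrable_chr_h (-ξ) k
    · simp [chr_neg]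
  have l : ∀ (w : V → ℝ), Integrable (fun y => w y • T.h y) T.ν →
      q (∫ y, w y • T.h y ∂T.ν) a = T.app fun x => w x • a := fun w hw => by
    refine ((qLeft a).integral_comp_comm hw).symm.trans
      (integral_congr_ae (Eventually.of_forall fun y => ?_))
    show q (w y • T.h y) a = q (T.h y) (w y • a)
    rw [q_smul_left, q_smul_right]
  refine ⟨?_, ?_⟩
  · rw [e1, l _ hr]
  · rw [e2, q_smul_left, l _ him]; ring

/-- The coefficients of a current killing exact forms are null. -/
lemma mc_null {T : Current S} (hT : ∀ η, Smooth η → T.app (d1 η) = 0) {ξ : Freq} (hξ : ξ ≠ 0) :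
    (qC (T.mc ξ) (cconj (T.mc ξ))).re = 0 := by
  have hv : ∀ p r s η, pair (intVec ξ) p * ev (wedge (intVec ξ) η) r s +
      pair (intVec ξ) r * ev (wedge (intVec ξ) η) s p +
      pair (intVec ξ) s * ev (wedge (intVec ξ) η) p r = 0 := fun p r s η => by
    simp only [ev_wedge]; ring
  have hz : ∀ η, q (reF (T.mc ξ)) (wedge (intVec ξ) η) = 0 ∧
      q (imF (T.mc ξ)) (wedge (intVec ξ) η) = 0 := fun η => by
    set a := wedge (intVec ξ) η
    have hre : (fun x => (chr ξ x).re • a) = synth (Pi.single ξ (cplx a)) := by
      funext x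
      rw [synth_single]
      ext k
      simp [reF_apply, imF, cplx_apply]
    have him : (fun x => (-1 : ℝ) • ((chr ξ x).im • a)) =
        synth (Pi.single ξ (Complex.I • cplx a)) := by
      funext x
      rw [synth_single]
      ext k
      simp [reF_apply, imF, cplx_apply]
    refine ⟨?_, ?_⟩
    · rw [(q_reF_mc T ξ a).1, app_closed hT (smooth_re_chr ξ a)
        (closed_chr_wedge (ξ := ξ) (smooth_re_chr ξ a) (1 / 2) (1 / 2) (fun x => by
          rw [chr_neg, Complex.re_eq_add_conj]; ring) fun p r s => hv p r s η),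
        hre, mean_re_chr hξ, q_zero_right]
    · have h1 : T.app (fun x => (-1 : ℝ) • ((chr ξ x).im • a)) = 0 := by
        rw [app_closed hT (α := fun x => (-1 : ℝ) • ((chr ξ x).im • a))]
        · rw [him, mean_re_chr hξ, q_zero_right]
        · exact smooth_smul _ (smooth_im_chr ξ a)
        · have hc := closed_chr_wedge (ξ := ξ) (smooth_im_chr ξ a) (-Complex.I / 2)
            (Complex.I / 2) (fun x => by
              rw [chr_neg]
              apply Complex.ext <;> simp <;> ring) fun p r s => hv p r s η
          intro x u v w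
          simp only [fderiv_fun_const_smul ((smooth_im_chr ξ a).differentiableAt x), smul_apply,
            ev_smul]
          linear_combination (-1 : ℝ) * hc x u v w
      rw [T.app_smul] at h1
      rw [(q_reF_mc T ξ a).2]
      linarith
  have ht : intVec ξ ≠ 0 := fun h => hξ (funext fun i => by simpa [intVec] using congrFun h i)
  have hw : ∀ {R : Form}, (∀ η, q R (wedge (intVec ξ) η) = 0) → q R R = 0 := fun {R} h => by
    rw [eq_wedge_of_cyclic ht (cyclic_of_q_wedge h)]
    simp only [q, wedge, ofSkew_apply, pair_e', fi, se, Matrix.cons_val_zero, Matrix.cons_val_one,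
      Matrix.cons_val]
    ring
  rw [re_qC_cconj, hw fun η => (hz η).1, hw fun η => (hz η).2, add_zero]

/-- The regularised energy of a current killing exact forms is the square of its class. -/
lemma energy_closed {T : Current S} (hT : ∀ η, Smooth η → T.app (d1 η) = 0) {ε : ℝ} (hε : 0 < ε) :
    ∫ x in cube, q (T.reg ε x) (T.reg ε x) = q (cls T) (cls T) := by
  have hm := memLp_cube (T.continuous_reg hε).1 (T.continuous_reg hε).2 2
  rw [← PQ_coef hm hm, PQ, tsum_eq_single (0 : Freq) fun ξ hξ => ?_]
  · simp only [T.coef_reg hε, qC_smul_cconj, qC_cconj_smul, mc_zero, re_qC_cplx]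
    simp [wgt]
  · simp only [T.coef_reg hε, qC_smul_cconj, qC_cconj_smul, mc_null hT hξ, mul_zero]

/-! ### The lower bound -/

/-- The energy of a positive current is bounded below by its density, uniformly in the current. -/
lemma exists_energy_lower (S : Setup) : ∃ C, 0 ≤ C ∧ ∀ T : Current S, ∀ ε, 0 < ε → ε ≤ 1 →
    -C * ∫ y, T.dens ε y ∂T.ν ≤ ∫ x in cube, q (T.reg ε x) (T.reg ε x) := by
  obtain ⟨Cl, hCl, hpair⟩ := S.exists_pair_lower
  obtain ⟨Cu, hCu, hup⟩ := exists_ker2_dist
  refine ⟨Cl * Cu, by positivity, fun T ε hε h1 => ?_⟩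
  have := T.finite
  have he : ∫ x in cube, q (T.reg ε x) (T.reg ε x) = T.pairE (fun _ => 1) ε := by
    rw [Current.pairE, T.regW_one]
  rw [he, T.pairE_eq measurable_const (fun _ => by simp) hε, ← integral_const_mul]
  simp only [one_mul]
  have hi : Integrable (fun y => T.dens ε y) T.ν := by
    refine T.integrable_bounded (T.continuous_dens hε).measurable.aestronglyMeasurable
      (C := T.mass / ε ^ 2) fun y => ?_
    rw [Real.norm_eq_abs, abs_of_nonneg (T.dens_nonneg ε y)]
    exact T.dens_le_mass hε y
  refine integral_mono_ae (hi.const_mul _) (T.integrable_ker2_q hε).integral_prod_left ?_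
  filter_upwards [(T.integrable_ker2_q hε).prod_right_ae,
    (T.integrable_ker2_sq hε).prod_right_ae] with y iq id
  have h2 : -(Cl * ∫ z, ker2 ε (y - z) * dist0 (y - z) ^ 2 ∂T.ν) ≤
      ∫ z, ker2 ε (y - z) * q (T.h y) (T.h z) ∂T.ν := by
    rw [← integral_const_mul, ← integral_neg]
    refine integral_mono (id.const_mul Cl).neg iq fun z => ?_
    have := mul_le_mul_of_nonneg_left (hpair y z (T.h y) (T.h z) (T.psd y) (T.psd z) (T.trace y)
      (T.trace z)) (ker2_nonneg' hε (y - z))
    linarith
  have h3 := mul_le_mul_of_nonneg_left (T.integral_ker2_sq_le hε (fun u => (hup ε hε h1 u).2) y)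
    hCl.le
  linarith

end Vale.Agent.P247.Ortho
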