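import Vale.Agent.P204.Torus.Phase2
import Vale.Agent.P247.Ortho.Separation
import Vale.Agent.P247.Ortho.Weighted
import Vale.Agent.P247.Ortho.Vanish

/-!
P247, orthogonalisation: on the four-torus there is a compatible form in the class of the taming
form when closed anti-invariant forms represent two orthonormal classes orthogonal to it.

Otherwise there is a closed current of class `u`, orthogonal to the three classes, extending a
positive current `T`. The part of `T` of positive density is closed, of class `c`, and the energy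
of the rest gives `σ ≤ q (u - c) (u - c) + C τ`. The right-hand class is not timelike, so `σ = 0`,
and then the mass of `T` is `q u (m 0) = 0`.
-/

open MeasureTheory Filter Topology
open scoped BigOperators

namespace Vale.Agent.P247.Ortho

open Vale.Agent.P204.Torus
open UData (fderiv_Th)

variable {S : Setup} {T : Current S} {m : Fin 3 → Form} {u : Form}

/-- Cut-off weights make the current closed. -/
lemma app_weighted_d1 (D : CData T u) (hu : q u u ≤ 0) (hd : T.DensBound) (L : D.SLimit)
    {l : V → ℝ} (hl : ∀ y, Tendsto (fun k => T.Th (scale k) y) atTop (𝓝 (l y)))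
    (hlm : Measurable l) (hl0 : ∀ y, 0 ≤ l y) {τ : ℝ} (hτ : 0 < τ)
    (hg1 : ∀ y, l y / (l y + τ) ≤ 1) {η : V → V} (hη : Smooth η) :
    (weighted T (fun y => l y / (l y + τ)) hg1).app (d1 η) = 0 := by
  have := T.finite
  have hg0 : ∀ y, 0 ≤ l y / (l y + τ) := fun y => by have := hl0 y; positivity
  rw [app_weighted (g := fun y => l y / (l y + τ)) (hlm.div (hlm.add_const τ)) hg0]
  refine tendsto_nhds_unique ?_ (D.tendsto_app_cut hu hd L hη hτ)
  obtain ⟨N, hN, hNh⟩ := T.exists_h_bound
  obtain ⟨M, hM, hMb⟩ := exists_bound (smooth_d1 hη).smooth.continuous (smooth_d1 hη).periodic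
  simp only [Current.app, q_smul_right]
  refine tendsto_integral_of_dominated_convergence (fun _ => 6 * (N * M)) (fun k => ?_)
    (integrable_const _) (fun k => Eventually.of_forall fun y => ?_)
    (Eventually.of_forall fun y => ?_)
  · have hc : Continuous (T.Th (scale k)) := (fderiv_Th (T := T) (scale_pos' k)).1.smooth.continuous
    exact ((hc.measurable.div (hc.measurable.add_const τ)).mul
      ((Setup.continuous_q continuous_fst continuous_snd).measurable.comp
        (T.meas.prodMk (smooth_d1 hη).smooth.continuous.measurable))).aestronglyMeasurable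
  · have := T.Th_nonneg (scale k) y
    rw [norm_mul, Real.norm_of_nonneg (by positivity), Real.norm_eq_abs]
    refine (mul_le_of_le_one_left (abs_nonneg _)
      (div_le_one_of_le₀ (le_add_of_nonneg_right hτ.le) (by positivity))).trans
        ((abs_q_le _ _).trans ?_)
    gcongr
    · exact hNh y
    · exact hMb y
  · exact (((hl y).div ((hl y).add_const τ)
      (add_pos_of_nonneg_of_pos (hl0 y) hτ).ne').mul_const _)

/-- The weighted pairing with the regularised current tends to the pairing of the classes. -/
lemma tendsto_pairE_weighted (D : CData T u) (hd : T.DensBound) (L : D.SLimit) {g : V → ℝ}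
    (hg : Measurable g) (hg0 : ∀ y, 0 ≤ g y) (hg1 : ∀ y, g y ≤ 1)
    (hex : ∀ η, Smooth η → (weighted T g hg1).app (d1 η) = 0) :
    Tendsto (fun j => T.pairE g (scale j)) atTop (𝓝 (q (cls (weighted T g hg1)) u)) := by
  have := T.finite
  obtain ⟨N, hN, hNh⟩ := T.exists_h_bound
  set T' := weighted T g hg1
  set mass := T.ν.real Set.univ
  have hm : 0 ≤ mass := measureReal_nonneg
  rw [Metric.tendsto_nhds]
  intro ρ hρ
  set δ := ρ / 2 / (1 + 6 * N * mass) with hδ
  have hδ0 : 0 < δ := by positivity
  obtain ⟨e0, he0, hnear⟩ := D.pairE_near_exact hd L δ hδ0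
  filter_upwards [tendsto_scale.eventually (eventually_le_nhds he0)] with j hj
  set ε := scale j
  have hε : 0 < ε := scale_pos' j
  have hε1 : ε ≤ 1 := Mass.scale_le_one j
  obtain ⟨η, hη, hηd⟩ := D.Ue_exact ε hε hε1 δ hδ0
  have hgb : ∀ y, |g y| ≤ 1 := fun y => by rw [abs_of_nonneg (hg0 y)]; exact hg1 y
  have h1 := hnear ε hε hj g hg hgb
  have hsm : Smooth fun x => u + d1 η x :=
    Setup.smooth_const u |>.smooth.add (smooth_d1 hη).smooth |> fun h =>
      ⟨h, fun x n => by simp only [(smooth_d1 hη).periodic x n]⟩
  have h2 : T'.app (fun x => u + d1 η x) = q (cls T') u := by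
    rw [T'.app_add (Setup.smooth_const u) (smooth_d1 hη), hex η hη, add_zero, app_const]
  rw [app_weighted hg hg0] at h2
  have hkc := continuous_kconv hε (D.Ue_cont ε hε hε1) (D.Ue_periodic ε hε hε1)
  have h3 : |∫ y, g y * q (T.h y) (kconv ε (D.Ue ε) y) ∂T.ν - q (cls T') u| ≤
      6 * N * mass * δ := by
    obtain ⟨M, hM, hMb⟩ := exists_bound hsm.smooth.continuous hsm.periodic
    have hi : ∀ {F : V → Form}, Measurable F → (∃ B, ∀ y, ‖F y‖ ≤ B) →
        Integrable (fun y => g y * q (T.h y) (F y)) T.ν := fun {F} hF ⟨B, hB⟩ => by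
      refine T.integrable_bounded (hg.mul ((Setup.continuous_q continuous_fst
        continuous_snd).measurable.comp (T.meas.prodMk hF))).aestronglyMeasurable
        (C := 1 * (6 * (N * B))) fun y => ?_
      rw [norm_mul, Real.norm_eq_abs, Real.norm_eq_abs]
      refine mul_le_mul (hgb y) ((abs_q_le _ _).trans ?_) (abs_nonneg _) zero_le_one
      gcongr
      · exact hNh y
      · exact hB y
    have hi1 := hi hkc.measurable ⟨M + δ, fun y => by
      have := norm_le_norm_add_norm_sub' (kconv ε (D.Ue ε) y) (u + d1 η y)
      linarith [hMb y, hηd y]⟩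
    rw [← h2, ← integral_sub hi1 (hi hsm.smooth.continuous.measurable ⟨M, hMb⟩),
      ← Real.norm_eq_abs]
    refine (norm_integral_le_of_norm_le_const (μ := T.ν) (C := 6 * (N * δ))
      (Eventually.of_forall fun y => ?_)).trans (le_of_eq (by simp only [mass]; ring))
    rw [← mul_sub, ← q_sub_right, norm_mul, Real.norm_eq_abs, Real.norm_eq_abs]
    refine (mul_le_of_le_one_left (abs_nonneg _) (hgb y)).trans ((abs_q_le _ _).trans ?_)
    gcongr
    · exact hNh y
    · exact hηd y
  rw [Real.dist_eq]
  have hsum : δ + 6 * N * mass * δ = ρ / 2 := by rw [hδ]; field_simp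
  have := abs_sub_le (T.pairE g ε) (∫ y, g y * q (T.h y) (kconv ε (D.Ue ε) y) ∂T.ν) (q (cls T') u)
  linarith

/-- The anti-invariant part has no mass, so the current is exact up to its class. -/
lemma sigma_eq_zero (hm : ClassSetup S m) {α0 : V → Form} (hα0 : S.Compatible α0)
    (D : CData T u) (hum : ∀ i, q u (m i) = 0)
    (hd : T.DensBound) (L : D.SLimit) : L.σ = 0 := by
  have := T.finite
  have hu : q u u ≤ 0 := hm.orth.q_nonpos hum
  obtain ⟨Cl, hCl, hlow⟩ := exists_energy_lower S
  obtain ⟨Ct, hCt, hth⟩ := S.exists_th_compare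
  obtain ⟨A, hA, hA', hlim⟩ := D.exists_limit hd L
  choose l hl using hlim
  have hThc : ∀ j, Continuous (T.Th (scale j)) := fun j =>
    (fderiv_Th (T := T) (scale_pos' j)).1.smooth.continuous
  have hlm : Measurable l :=
    measurable_of_tendsto_metrizable (fun j => (hThc j).measurable) (tendsto_pi_nhds.2 hl)
  have hl0 : ∀ y, 0 ≤ l y := fun y =>
    ge_of_tendsto' (hl y) fun j => T.Th_nonneg (scale j) y
  set mass := T.ν.real Set.univ
  have key : ∀ τ, 0 < τ → L.σ ≤ Cl * Ct * (τ * mass) := by
    intro τ hτ
    set g : V → ℝ := fun y => l y / (l y + τ) with hgdef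
    set w : V → ℝ := fun y => τ / (l y + τ) with hwdef
    have hp : ∀ y, 0 < l y + τ := fun y => add_pos_of_nonneg_of_pos (hl0 y) hτ
    have hg : Measurable g := hlm.div (hlm.add_const τ)
    have hw : Measurable w := measurable_const.div (hlm.add_const τ)
    have hg0 : ∀ y, 0 ≤ g y := fun y => div_nonneg (hl0 y) (hp y).le
    have hw0 : ∀ y, 0 ≤ w y := fun y => div_nonneg hτ.le (hp y).le
    have hgw : ∀ y, g y + w y = 1 := fun y => by
      simp only [g, w]; rw [← add_div, div_self (hp y).ne']
    have hg1 : ∀ y, g y ≤ 1 := fun y => by linarith [hgw y, hw0 y]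
    have hw1 : ∀ y, w y ≤ 1 := fun y => by linarith [hgw y, hg0 y]
    have hgb : ∀ y, |g y| ≤ 1 := fun y => by rw [abs_of_nonneg (hg0 y)]; exact hg1 y
    set T1 := weighted T g hg1
    set T2 := weighted T w hw1
    have hex : ∀ η, Smooth η → T1.app (d1 η) = 0 := fun η hη =>
      app_weighted_d1 D hu hd L hl hlm hl0 hτ hg1 hη
    set c := cls T1
    -- the class of the complement is not timelike
    have hcls : q (u - c) (u - c) ≤ 0 := by
      have hac : ∀ β, Smooth β → Closed β → T1.app β = q c (Torus.mean β) := fun β hβ hcβ =>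
        app_closed hex hβ hcβ
      have hc12 : ∀ i, i ≠ 0 → q (u - c) (m i) = 0 := fun i hi => by
        obtain ⟨β, hβ, hcβ, hmβ, hz⟩ := hm.anti i hi
        have h0 : T1.app β = 0 := by
          exact integral_eq_zero_of_ae (Eventually.of_forall fun x => by
            show q (T1.h x) (β x) = 0
            rw [S.q_inv_piP (T1.psd x).1, hz, q_zero_right])
        rw [q_sub_left, hum, ← hmβ, ← hac β hβ hcβ, h0, sub_zero]
      have hc0 : q (u - c) (m 0) ≤ 0 := by
        rw [q_sub_left, hum, ← hm.mean_om, ← hac _ S.om_smooth hm.closed, zero_sub, neg_nonpos]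
        refine integral_nonneg fun y => ?_
        rw [Pi.zero_apply, S.q_inv_piP (T1.psd y).1]
        show (0 : ℝ) ≤ q (T1.h y) (S.Om y)
        rw [T1.trace y]
        exact zero_le_one
      have hy := hm.perp hα0.1
      have hyq : ∀ x, 0 ≤ q (α0 x) (α0 x) := fun x => by
        have hp : S.Psd x (α0 x) := ⟨hα0.1.2.2 x, fun v => by
          rcases eq_or_ne v 0 with rfl | hv
          · simp [ev_def]
          · exact (hα0.2 x v hv).le⟩
        exact S.q_psd_psd hp hp
      have hyy : 0 ≤ q (Torus.mean α0) (Torus.mean α0) := by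
        rw [← Torus.int_q hα0.1.1 hα0.1.2.1 hα0.1.1 hα0.1.2.1]
        exact integral_nonneg hyq
      have hy0 : 0 < q (Torus.mean α0) (m 0) := by
        rw [← hm.mean_om, ← Torus.int_q hα0.1.1 hα0.1.2.1 S.om_smooth hm.closed]
        exact Torus.integral_cube_pos (continuous_q_comp hα0.1.1.smooth.continuous
          S.om_smooth.smooth.continuous) (q_om_pos hα0)
      have hxy : 0 ≤ q (u - c) (Torus.mean α0) := by
        have h1 : T.app α0 = q u (Torus.mean α0) :=
          (D.inv α0 hα0.1.1 hα0.1.2.2).symm.trans (D.closed α0 hα0.1.1 hα0.1.2.1)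
        rw [q_sub_left, ← h1, ← hac _ hα0.1.1 hα0.1.2.1, app_weighted hg hg0]
        have hi := T.integrable_q hα0.1.1.smooth.continuous hα0.1.1.periodic
        simp only [Current.app]
        rw [← integral_sub hi (hi.bdd_mul hg.aestronglyMeasurable (c := 1)
          (Eventually.of_forall fun y => by rw [Real.norm_eq_abs]; exact hgb y))]
        refine integral_nonneg fun y => ?_
        have hp : S.Psd y (α0 y) := ⟨hα0.1.2.2 y, fun v => by
          rcases eq_or_ne v 0 with rfl | hv
          · simp [ev_def]
          · exact (hα0.2 y v hv).le⟩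
        have := mul_nonneg (hw0 y) (S.q_psd_psd (T.psd y) hp)
        simp only [Pi.zero_apply]
        linarith [show q (T.h y) (α0 y) - g y * q (T.h y) (α0 y) =
          w y * q (T.h y) (α0 y) by rw [eq_sub_of_add_eq' (hgw y)]; ring]
      exact hm.orth.q_nonpos_of_future (hc12 1 (by decide)) (hc12 2 (by decide)) hy.1 hy.2 hyy hy0
        hc0 hxy
    -- the energy of the complement
    have hlim1 : Tendsto (fun j => ∫ x in cube, q (T.reg (scale j) x) (T.reg (scale j) x)) atTop
        (𝓝 (q u u - L.σ)) :=
      (D.tendsto_reg_energy hd L).comp (tendsto_nhdsWithin_iff.2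
        ⟨tendsto_scale, Eventually.of_forall fun j => scale_pos' j⟩)
    have hlim2 := tendsto_pairE_weighted D hd L hg hg0 hg1 hex
    have hE : Tendsto (fun j => ∫ x in cube, q (T2.reg (scale j) x) (T2.reg (scale j) x)) atTop
        (𝓝 (q (u - c) (u - c) - L.σ)) := by
      have h := (hlim1.sub (hlim2.const_mul 2)).add_const (q c c)
      rw [show q u u - L.σ - 2 * q c u + q c c = q (u - c) (u - c) - L.σ by
        simp only [q_sub_left, q_sub_right, q_comm u c]; ring] at h
      refine h.congr fun j => ?_
      set ε := scale j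
      have hε : 0 < ε := scale_pos' j
      have hTc := UData.continuous_reg (T := T) hε
      have hWc := T.continuous_regW hg hgb hε
      have e2 : T2.reg ε = fun x => T.reg ε x - T.regW g ε x := by
        funext x
        rw [reg_weighted hw hw0, Current.regW, Current.reg, Current.regW,
          ← integral_sub (T.integrable_smooth_smul (continuous_ker hε) (ker_periodic hε) x)
            (T.integrable_regW hg hgb hε x)]
        refine integral_congr_ae (Eventually.of_forall fun y => ?_)
        simp only [← sub_smul, eq_sub_of_add_eq' (hgw y)]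
        rw [sub_mul, one_mul]
      rw [e2, Current.pairE, ← energy_closed hex hε, reg_weighted hg hg0]
      have hq : ∀ {a b : V → Form}, Continuous a → Continuous b →
          Integrable (fun x => q (a x) (b x)) (volume.restrict cube) := fun ha hb =>
        Torus.integrable_cube (continuous_q_comp ha hb)
      rw [← integral_const_mul, ← integral_sub (hq hTc hTc) ((hq hWc hTc).const_mul 2),
        ← integral_add ((hq hTc hTc).sub' ((hq hWc hTc).const_mul 2)) (hq hWc hWc)]
      refine integral_congr_ae (Eventually.of_forall fun x => ?_)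
      simp only [q_sub_left, q_sub_right, q_comm (T.reg ε x) (T.regW g ε x)]
      ring
    -- the lower bound
    have hT : Tendsto (fun j => ∫ y, w y * T.Th (scale j) y ∂T.ν) atTop
        (𝓝 (∫ y, w y * l y ∂T.ν)) := by
      refine tendsto_integral_of_dominated_convergence (fun _ => A)
        (fun j => (hw.mul (hThc j).measurable).aestronglyMeasurable)
        (integrable_const A) (fun j => Eventually.of_forall fun y => ?_)
        (Eventually.of_forall fun y => (hl y).const_mul _)
      have h2 := T.Th_nonneg (scale j) y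
      rw [Real.norm_eq_abs, abs_of_nonneg (mul_nonneg (hw0 y) h2)]
      exact (mul_le_of_le_one_left h2 (hw1 y)).trans
        (hA' _ (scale_pos' j) (Mass.scale_le_one j) y).1
    have hbound : ∀ j, -(Cl * Ct * ∫ y, w y * T.Th (scale j) y ∂T.ν) ≤
        ∫ x in cube, q (T2.reg (scale j) x) (T2.reg (scale j) x) := fun j => by
      set ε := scale j
      have hε : 0 < ε := scale_pos' j
      have hε1 : ε ≤ 1 := Mass.scale_le_one j
      refine le_trans ?_ (hlow T2 ε hε hε1)
      rw [neg_mul, neg_le_neg_iff, mul_assoc]
      refine mul_le_mul_of_nonneg_left ?_ hCl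
      rw [integral_weighted hw hw0, ← integral_const_mul]
      simp only [smul_eq_mul]
      refine integral_mono_of_nonneg (Eventually.of_forall fun y =>
        mul_nonneg (hw0 y) (T2.dens_nonneg ε y)) ?_ (Eventually.of_forall fun y => ?_)
      · refine (T.integrable_bounded (F := fun y => w y * T.Th ε y)
          (hw.mul (hThc j).measurable).aestronglyMeasurable (C := A) fun y => ?_).const_mul Ct
        have h2 := T.Th_nonneg ε y
        rw [Real.norm_eq_abs, abs_of_nonneg (mul_nonneg (hw0 y) h2)]
        exact (mul_le_of_le_one_left h2 (hw1 y)).trans (hA' _ hε hε1 y).1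
      · simp only
        rw [mul_left_comm]
        refine mul_le_mul_of_nonneg_left ?_ (hw0 y)
        rw [Current.dens, integral_weighted hw hw0, Current.Th, ← integral_const_mul]
        refine integral_mono_of_nonneg (Eventually.of_forall fun z => ?_)
          ((T.integrable_th hε y).const_mul Ct) (Eventually.of_forall fun z => ?_)
        · simp only [Pi.zero_apply, smul_eq_mul]
          exact mul_nonneg (hw0 z) (by positivity)
        · simp only [smul_eq_mul]
          exact (mul_le_of_le_one_left (by positivity) (hw1 z)).trans (hth ε hε y z).2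
    have h := le_of_tendsto_of_tendsto ((hT.const_mul (Cl * Ct)).neg) hE
      (Eventually.of_forall hbound)
    have h2 : ∫ y, w y * l y ∂T.ν ≤ τ * mass := by
      refine (integral_mono_of_nonneg (Eventually.of_forall fun y => mul_nonneg (hw0 y) (hl0 y))
        (integrable_const τ) (Eventually.of_forall fun y => ?_)).trans_eq
          (by rw [integral_const, smul_eq_mul, mul_comm])
      simp only [w]
      rw [div_mul_eq_mul_div, div_le_iff₀ (hp y)]
      nlinarith [hl0 y]
    have h3 := mul_le_mul_of_nonneg_left h2 (mul_nonneg hCl hCt.le)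
    linarith
  refine le_antisymm (le_of_forall_pos_le_add fun ε hε => ?_) L.σ_nonneg
  rw [zero_add]
  set K := Cl * Ct * mass + 1
  have hmass : 0 ≤ mass := measureReal_nonneg
  have hK : 0 < K := by positivity
  refine (key (ε / K) (by positivity)).trans ?_
  rw [show Cl * Ct * (ε / K * mass) = ε * ((Cl * Ct * mass) / K) by ring]
  exact mul_le_of_le_one_right hε.le ((div_le_one hK).2 (by simp [K]))

/-- A compatible form in the class of the taming form. -/
theorem exists_compatible_class (hm : ClassSetup S m) :
    ∃ α, S.Compatible α ∧ Torus.mean α = m 0 := by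
  by_contra hno
  obtain ⟨T, u, hT, hum, hTu⟩ := exists_current_class hm hno
  obtain ⟨D, hD⟩ := exists_cdata_slimit T u hTu
  have hu : q u u ≤ 0 := hm.orth.q_nonpos hum
  obtain ⟨L⟩ := hD (D.bounded hu)
  have hd : T.DensBound := D.exists_dens_bound hu
  obtain ⟨α0, hα0⟩ := exists_compatible_setup S hm.closed
  have h0 := L.σ_zero (sigma_eq_zero hm hα0 D hum hd L) S.om S.om_smooth
  rw [CData.Sf, D.closed S.om S.om_smooth hm.closed, hm.mean_om, hum, zero_sub, neg_eq_zero] at h0
  have h1 : ∀ y, q (T.h y) (S.om y) = 1 := fun y => by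
    rw [S.q_inv_piP (T.psd y).1]
    exact T.trace y
  simp only [Current.app, h1, integral_const, smul_eq_mul, mul_one] at h0
  have := T.finite
  exact (measureReal_ne_zero_iff (measure_ne_top _ _)).2
    (Measure.measure_univ_ne_zero.2 hT) h0

end Vale.Agent.P247.Ortho
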