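import Vale.Agent.P247.Ortho.Phase1
import Vale.Agent.P204.Torus.Energy

/-!
P247, orthogonalisation: the energy of the regularised current (adapted from
`Vale.Agent.P204.Torus.Energy`).
-/

open MeasureTheory Filter Topology
open scoped BigOperators

namespace Vale.Agent.P247.Ortho

open Vale.Agent.P204.Torus
open UData (continuous_reg)

namespace CData

variable {S : Setup} {T : Current S} {u : Form} (D : CData T u)

lemma periodic_Se {ε : ℝ} (hε : 0 < ε) (h1 : ε ≤ 1) : Periodic (D.Se ε) := fun x n => by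
  simp only [Se, D.Ue_periodic ε hε h1 x n, T.periodic_reg hε x n]

/-- The cross term of a weighted smoothing and the anti-invariant part. -/
lemma cross_small (hd : T.DensBound) (L : D.SLimit) : ∀ δ > 0, ∃ ε₀ > 0, ε₀ ≤ 1 ∧
    ∀ ε, 0 < ε → ε ≤ ε₀ → ∀ w : V → ℝ, Measurable w → (∀ y, |w y| ≤ 1) →
      |∫ x, q (T.regW w ε x) (D.Se ε x) ∂cubeVol| ≤ δ := by
  intro δ hδ
  obtain ⟨CW, hCW, hW⟩ := T.exists_regW_bound
  obtain ⟨Cp, hCp, hproj⟩ := S.exists_proj_bound
  obtain ⟨M0, hM0⟩ := hd
  set M := max M0 0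
  have hm := T.mass_nonneg
  have hΦ := phiMass_pos
  set CB := √(CW ^ 2 * (2 * 4 ^ 5 * phiMass * T.mass * M))
  have hCB : 0 ≤ CB := Real.sqrt_nonneg _
  obtain ⟨η, hη, hsm⟩ := L.Se_small CB (δ / 2) (by positivity)
  set a := 6 * Cp * CB
  have hev := L.piP_small.eventually (eventually_le_nhds
    (show (0 : ℝ) < δ / 2 / (a + 1) by positivity))
  obtain ⟨η', hη', hpp⟩ := mem_nhdsGT_iff_exists_Ioc_subset.1 hev
  set b := CW * (phiMass * T.mass)
  refine ⟨min (min η η') (min 1 (η / (b + 1))), lt_min (lt_min hη hη')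
    (lt_min one_pos (by positivity)), (min_le_right _ _).trans (min_le_left _ _),
    fun ε hε hεb w hw hb => ?_⟩
  obtain ⟨hb1, hb2⟩ := le_min_iff.1 hεb
  obtain ⟨hεη, hεη'⟩ := le_min_iff.1 hb1
  obtain ⟨h1, hεb'⟩ := le_min_iff.1 hb2
  have hWc := T.continuous_regW hw hb hε
  have hS := D.continuous_Se hε h1
  have hPW : Continuous fun x => piP (S.J x) (T.regW w ε x) := continuous_piP hWc
  have hPS : Continuous fun x => piP (S.J x) (D.Se ε x) := continuous_piP hS
  have hMW : Continuous fun x => piM (S.J x) (T.regW w ε x) := by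
    have e : (fun x => piM (S.J x) (T.regW w ε x)) =
        fun x => T.regW w ε x - piP (S.J x) (T.regW w ε x) := by
      funext x
      rw [eq_sub_iff_add_eq', piP_add_piM]
    rw [e]
    exact hWc.sub hPW
  have hperW : Periodic fun x => piM (S.J x) (T.regW w ε x) := fun x n => by
    have e : T.regW w ε (x + intVec n) = T.regW w ε x :=
      integral_congr_ae (Eventually.of_forall fun z => by
        simp only [add_sub_right_comm x (intVec n) z, ker_periodic hε (x - z) n])
    simp only [S.J_smooth.periodic x n, e]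
  have hpot := T.continuous_pot hε
  have hsq : ∫ x, T.pot ε x ^ 2 ∂cubeVol ≤ 2 * 4 ^ 5 * phiMass * ε ^ 6 * T.mass * M :=
    T.integral_pot_sq_le hε fun y => (hM0 ε hε h1 y).trans (le_max_left _ _)
  have hl : ∀ (f : V → Form) (k : ℕ), Continuous f →
      (∀ x, ‖f x‖ ≤ CW * ((ε ^ k)⁻¹ * T.pot ε x)) → l2 f ≤ CB * (ε ^ 3 / ε ^ k) := by
    intro f k hf hfb
    refine (Real.sqrt_le_sqrt ((integral_mono (integrable_cube_of_continuous (hf.norm.pow 2))
      (integrable_cube_of_continuous ((continuous_const.mul (continuous_const.mul hpot)).pow 2))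
      fun x => pow_le_pow_left₀ (norm_nonneg _) (hfb x) 2).trans ?_)).trans_eq
      (?_ : √(CW ^ 2 * (2 * 4 ^ 5 * phiMass * T.mass * M) * (ε ^ 3 / ε ^ k) ^ 2) = _)
    · simp only [mul_pow, Pi.mul_apply, Pi.pow_apply]
      rw [integral_const_mul, integral_const_mul]
      refine (mul_le_mul_of_nonneg_left (mul_le_mul_of_nonneg_left hsq (by positivity))
        (by positivity)).trans_eq ?_
      field_simp
    · rw [Real.sqrt_mul' _ (sq_nonneg _), Real.sqrt_sq (by positivity)]
  have hiP : Integrable (fun x => q (piP (S.J x) (T.regW w ε x)) (piP (S.J x) (D.Se ε x)))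
      cubeVol := integrable_cube_of_continuous (Setup.continuous_q hPW hPS)
  have hiM : Integrable (fun x => q (D.Se ε x) (piM (S.J x) (T.regW w ε x))) cubeVol :=
    integrable_cube_of_continuous (Setup.continuous_q hS hMW)
  have e : ∫ x, q (T.regW w ε x) (D.Se ε x) ∂cubeVol =
      ∫ x, q (piP (S.J x) (T.regW w ε x)) (piP (S.J x) (D.Se ε x)) ∂cubeVol +
        ∫ x, q (D.Se ε x) (piM (S.J x) (T.regW w ε x)) ∂cubeVol := by
    rw [← integral_add hiP hiM]
    refine integral_congr_ae (Eventually.of_forall fun x => ?_)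
    simp only
    rw [S.q_decomp x (T.regW w ε x) (D.Se ε x),
      S.q_decomp x (D.Se ε x) (piM (S.J x) (T.regW w ε x)), S.piP_piM, S.piM_piM, q_zero_right,
      zero_add, q_comm (piM (S.J x) (T.regW w ε x))]
  have h2 : |∫ x, q (piP (S.J x) (T.regW w ε x)) (piP (S.J x) (D.Se ε x)) ∂cubeVol| ≤ δ / 2 := by
    have hi : Integrable (fun x => ‖T.regW w ε x‖ * ‖piP (S.J x) (D.Se ε x)‖) cubeVol :=
      integrable_cube_of_continuous (hWc.norm.mul hPS.norm)
    refine abs_integral_le_integral_abs.trans ((integral_mono hiP.abs (hi.const_mul (6 * Cp))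
      fun x => ?_).trans ?_)
    · refine (abs_q_le _ _).trans ?_
      rw [mul_assoc 6 Cp]
      refine mul_le_mul_of_nonneg_left ?_ (by norm_num)
      rw [← mul_assoc]
      exact mul_le_mul_of_nonneg_right (hproj x _).1 (norm_nonneg _)
    · rw [integral_const_mul]
      have k1 := (integral_mul_le_l2 hWc hPS).trans (mul_le_mul_of_nonneg_right
        (hl _ 4 hWc fun x => (hW ε hε h1 w hw hb x).1) (l2_nonneg _))
      refine (mul_le_mul_of_nonneg_left k1 (by positivity)).trans ?_
      have k2 : l2 (fun x => piP (S.J x) (D.Se ε x)) / ε ≤ δ / 2 / (a + 1) := hpp ⟨hε, hεη'⟩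
      have ha : 0 ≤ a := by positivity
      calc 6 * Cp * (CB * (ε ^ 3 / ε ^ 4) * l2 (fun x => piP (S.J x) (D.Se ε x)))
          = a * (l2 (fun x => piP (S.J x) (D.Se ε x)) / ε) := by
            simp only [a]; field_simp
        _ ≤ a * (δ / 2 / (a + 1)) := mul_le_mul_of_nonneg_left k2 ha
        _ ≤ δ / 2 := by
            rw [← mul_div_assoc, div_le_iff₀ (by positivity)]
            nlinarith
  have h3 : |∫ x, q (D.Se ε x) (piM (S.J x) (T.regW w ε x)) ∂cubeVol| ≤ δ / 2 := by
    refine hsm ε hε hεη _ hMW hperW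
      ((hl _ 3 hMW fun x => (hW ε hε h1 w hw hb x).2).trans_eq ?_) ?_
    · rw [div_self (by positivity), mul_one]
    · have hpi : Integrable (fun x => CW * ((ε ^ 3)⁻¹ * T.pot ε x)) cubeVol :=
        integrable_cube_of_continuous (continuous_const.mul (continuous_const.mul hpot))
      refine (integral_mono (integrable_cube_of_continuous hMW.norm) hpi
        fun x => (hW ε hε h1 w hw hb x).2).trans ?_
      rw [integral_const_mul, integral_const_mul]
      refine (mul_le_mul_of_nonneg_left (mul_le_mul_of_nonneg_left (T.integral_pot_le hε)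
        (by positivity)) hCW.le).trans ?_
      calc CW * ((ε ^ 3)⁻¹ * (phiMass * ε ^ 4 * T.mass)) = b * ε := by
            simp only [b]; field_simp
        _ ≤ η := by
            have k := (le_div_iff₀ (by positivity : 0 < b + 1)).1 hεb'
            linarith
  rw [e]
  exact (abs_add_le _ _).trans (by linarith)

lemma tendsto_reg_energy (hd : T.DensBound) (L : D.SLimit) :
    Tendsto (fun ε => ∫ x in cube, q (T.reg ε x) (T.reg ε x)) (𝓝[>] 0) (𝓝 (q u u - L.σ)) := by
  have hc : Tendsto (fun ε => ∫ x, q (T.reg ε x) (D.Se ε x) ∂cubeVol) (𝓝[>] 0) (𝓝 0) := by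
    rw [Metric.tendsto_nhds]
    intro δ hδ
    obtain ⟨e0, he0, -, h⟩ := D.cross_small hd L (δ / 2) (by positivity)
    filter_upwards [Ioc_mem_nhdsGT he0] with ε hε
    have h2 := h ε hε.1 hε.2 (fun _ => 1) measurable_const (fun _ => by simp)
    rw [T.regW_one] at h2
    rw [Real.dist_eq, sub_zero]
    linarith
  have h := ((hc.const_mul (-2 : ℝ)).sub L.σ_lim).const_add (q u u)
  rw [mul_zero, zero_sub, ← sub_eq_add_neg] at h
  refine h.congr' ?_
  filter_upwards [Ioc_mem_nhdsGT one_pos] with ε hε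
  have hS := D.continuous_Se hε.1 hε.2
  have hreg := continuous_reg (T := T) hε.1
  have hiT : Integrable (fun x => q (T.reg ε x) (T.reg ε x)) cubeVol :=
    integrable_cube_of_continuous (Setup.continuous_q hreg hreg)
  have hiX : Integrable (fun x => q (T.reg ε x) (D.Se ε x)) cubeVol :=
    integrable_cube_of_continuous (Setup.continuous_q hreg hS)
  have hiS : Integrable (fun x => q (D.Se ε x) (D.Se ε x)) cubeVol :=
    integrable_cube_of_continuous (Setup.continuous_q hS hS)
  have e : ∫ x, q (T.reg ε x) (T.reg ε x) ∂cubeVol +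
      2 * ∫ x, q (T.reg ε x) (D.Se ε x) ∂cubeVol +
        ∫ x, q (D.Se ε x) (D.Se ε x) ∂cubeVol = q u u := by
    rw [← integral_const_mul, ← integral_add hiT (hiX.const_mul 2),
      ← integral_add (hiT.fun_add (hiX.const_mul 2)) hiS]
    refine Eq.trans (integral_congr_ae (Eventually.of_forall fun x => ?_))
      (D.Ue_q ε hε.1 hε.2)
    simp only [Se, q_sub_left, q_sub_right, q_comm (T.reg ε x) (D.Ue ε x)]
    ring
  change q u u + (-2 * ∫ x, q (T.reg ε x) (D.Se ε x) ∂cubeVol -
    ∫ x, q (D.Se ε x) (D.Se ε x) ∂cubeVol) = ∫ x, q (T.reg ε x) (T.reg ε x) ∂cubeVol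
  linarith

lemma pairE_near_exact (hd : T.DensBound) (L : D.SLimit) : ∀ δ > 0, ∃ ε₀ > 0, ∀ ε, 0 < ε →
    ε ≤ ε₀ → ∀ w : V → ℝ, Measurable w → (∀ y, |w y| ≤ 1) →
      |T.pairE w ε - ∫ y, w y * q (T.h y) (kconv ε (D.Ue ε) y) ∂T.ν| ≤ δ := by
  intro δ hδ
  obtain ⟨e0, he0, he1, h⟩ := D.cross_small hd L δ hδ
  refine ⟨e0, he0, fun ε hε hεb w hw hb => ?_⟩
  have h1 := hεb.trans he1
  have hWc := T.continuous_regW hw hb hε
  have hU := D.Ue_cont ε hε h1
  have hreg := continuous_reg (T := T) hε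
  rw [← T.integral_q_regW hw hb hε hU (D.Ue_periodic ε hε h1)]
  change |∫ x, q (T.regW w ε x) (T.reg ε x) ∂cubeVol -
    ∫ x, q (T.regW w ε x) (D.Ue ε x) ∂cubeVol| ≤ δ
  rw [abs_sub_comm, ← integral_sub (integrable_cube_of_continuous (Setup.continuous_q hWc hU))
    (integrable_cube_of_continuous (Setup.continuous_q hWc hreg))]
  simp only [← q_sub_right]
  exact h ε hε hεb w hw hb

lemma exists_pair_mass (hu : q u u ≤ 0) (hd : T.DensBound) (L : D.SLimit) : ∃ C B, 0 < C ∧ 0 < B ∧
    (∀ y z, 0 ≤ q (T.h y) (T.h z) + C * dist0 (y - z) ^ 2) ∧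
    ∀ ε, 0 < ε → ε ≤ 1 →
      ∫ y, ∫ z, (if dist0 (y - z) ≤ ε then
        (q (T.h y) (T.h z) + C * dist0 (y - z) ^ 2) / ε ^ 4 else 0) ∂T.ν ∂T.ν ≤ B := by
  obtain ⟨Cl, hCl, hpair⟩ := S.exists_pair_lower
  obtain ⟨ck, hck, hlow⟩ := exists_ker_lower
  obtain ⟨Cu, hCu, hup⟩ := exists_ker2_dist
  obtain ⟨Ch, hCh, hh⟩ := T.exists_h_bound
  have hev := (D.tendsto_reg_energy hd L).eventually
    (eventually_le_nhds (lt_add_one (q u u - L.σ)))
  obtain ⟨M0, hM0⟩ := hd
  obtain ⟨e0, he0, hE⟩ := mem_nhdsGT_iff_exists_Ioc_subset.1 hev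
  set M := max M0 0
  have hm := T.mass_nonneg
  have hpos : ∀ y z, 0 ≤ q (T.h y) (T.h z) + Cl * dist0 (y - z) ^ 2 := fun y z => by
    linarith [hpair y z (T.h y) (T.h z) (T.psd y) (T.psd z) (T.trace y) (T.trace z)]
  set B1 := ck⁻¹ * (1 + Cl * (Cu * M * T.mass))
  set B2 := (6 * (Ch * Ch) + Cl) / min e0 1 ^ 4 * T.mass * T.mass
  have he : 0 < min e0 1 := lt_min he0 one_pos
  refine ⟨Cl, B1 + B2 + 1, hCl, by positivity, hpos, fun ε hε h1 => ?_⟩
  have hB1 : 0 ≤ B1 := by positivity
  have hB2 : 0 ≤ B2 := by positivity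
  set f := fun y z => if dist0 (y - z) ≤ ε then
    (q (T.h y) (T.h z) + Cl * dist0 (y - z) ^ 2) / ε ^ 4 else 0 with hf
  have hf0 : ∀ y z, 0 ≤ f y z := fun y z => by
    simp only [hf]
    split_ifs
    · exact div_nonneg (hpos y z) (by positivity)
    · exact le_rfl
  rcases le_or_gt ε e0 with hee | hee
  · have iq := T.integrable_ker2_q hε
    have id := (T.integrable_ker2_sq hε).const_mul Cl
    set G := fun p : V × V => ck⁻¹ * (ker2 ε (p.1 - p.2) * q (T.h p.1) (T.h p.2) +
      Cl * (ker2 ε (p.1 - p.2) * dist0 (p.1 - p.2) ^ 2)) with hG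
    have iG : Integrable G (T.ν.prod T.ν) := (iq.fun_add id).const_mul _
    have hfG : ∀ y z, f y z ≤ G (y, z) := fun y z => by
      have hG0 : G (y, z) = ker2 ε (y - z) *
          ((q (T.h y) (T.h z) + Cl * dist0 (y - z) ^ 2) / ck) := by
        simp only [hG]; ring
      rw [hG0]
      simp only [hf]
      split_ifs with hball
      · refine le_trans (le_of_eq ?_) (mul_le_mul_of_nonneg_right (hlow ε hε h1 _ hball).2
          (div_nonneg (hpos y z) hck.le))
        field_simp
      · exact mul_nonneg (ker2_nonneg' hε _) (div_nonneg (hpos y z) hck.le)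
    have k1 : ∫ y, ∫ z, f y z ∂T.ν ∂T.ν ≤ ∫ y, ∫ z, G (y, z) ∂T.ν ∂T.ν := by
      refine integral_mono_of_nonneg (Eventually.of_forall fun y => integral_nonneg (hf0 y))
        iG.integral_prod_left ?_
      filter_upwards [iG.prod_right_ae] with y hy
      exact integral_mono_of_nonneg (Eventually.of_forall (hf0 y)) hy
        (Eventually.of_forall (hfG y))
    refine k1.trans ?_
    rw [← integral_prod G iG]
    simp only [hG]
    rw [integral_const_mul, integral_add iq id, integral_const_mul, integral_prod _ iq,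
      integral_prod _ (T.integrable_ker2_sq hε)]
    have k2 : ∫ y, ∫ z, ker2 ε (y - z) * q (T.h y) (T.h z) ∂T.ν ∂T.ν ≤ 1 := by
      have h2 := T.pairE_eq (w := fun _ => 1) measurable_const (fun _ => by simp) hε
      simp only [one_mul] at h2
      rw [← h2]
      have h3 : T.pairE (fun _ => 1) ε ≤ q u u - L.σ + 1 := by
        rw [Current.pairE, T.regW_one]
        exact hE ⟨hε, hee⟩
      linarith [L.σ_nonneg, hu]
    have k3 : ∫ y, ∫ z, ker2 ε (y - z) * dist0 (y - z) ^ 2 ∂T.ν ∂T.ν ≤ Cu * M * T.mass := by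
      refine (integral_mono_of_nonneg (Eventually.of_forall fun y => integral_nonneg fun z =>
        mul_nonneg (ker2_nonneg' hε _) (sq_nonneg _)) (integrable_const (Cu * M))
        (Eventually.of_forall fun y => (T.integral_ker2_sq_le hε (fun u => (hup ε hε h1 u).2)
          y).trans (mul_le_mul_of_nonneg_left ((hM0 ε hε h1 y).trans (le_max_left _ _))
            hCu.le))).trans_eq ?_
      simp [Current.mass, mul_comm]
    calc ck⁻¹ * (∫ y, ∫ z, ker2 ε (y - z) * q (T.h y) (T.h z) ∂T.ν ∂T.ν +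
          Cl * ∫ y, ∫ z, ker2 ε (y - z) * dist0 (y - z) ^ 2 ∂T.ν ∂T.ν)
        ≤ B1 := by simp only [B1]; gcongr
      _ ≤ B1 + B2 + 1 := by linarith
  · have k : ∀ y z, f y z ≤ (6 * (Ch * Ch) + Cl) / min e0 1 ^ 4 := fun y z => by
      simp only [hf]
      split_ifs
      · refine div_le_div₀ (by positivity) ?_ (by positivity)
          (pow_le_pow_left₀ he.le ((min_le_left _ _).trans hee.le) 4)
        have h3 := (abs_le.1 (T.abs_qh_le hCh.le hh (y, z))).2
        have h4 := mul_le_mul_of_nonneg_left (pow_le_one₀ (n := 2) (dist0_nonneg (y - z))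
          (dist0_le_one _)) hCl.le
        linarith
      · positivity
    refine (integral_mono_of_nonneg (Eventually.of_forall fun y => integral_nonneg (hf0 y))
      (integrable_const ((6 * (Ch * Ch) + Cl) / min e0 1 ^ 4 * T.mass))
      (Eventually.of_forall fun y => ?_)).trans ?_
    · refine (integral_mono_of_nonneg (Eventually.of_forall (hf0 y))
        (integrable_const ((6 * (Ch * Ch) + Cl) / min e0 1 ^ 4))
        (Eventually.of_forall (k y))).trans_eq ?_
      simp [Current.mass, mul_comm]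
    · simp only [integral_const, smul_eq_mul]
      change T.mass * _ ≤ _
      have : T.mass * ((6 * (Ch * Ch) + Cl) / min e0 1 ^ 4 * T.mass) = B2 := by
        simp only [B2]; ring
      linarith


end CData

end Vale.Agent.P247.Ortho
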