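import Vale.Agent.P204.Torus.Point
import Vale.Agent.P204.Torus.GSolve
import Vale.Agent.P247.Ortho.LinAlg

/-!
P247, orthogonalisation: the almost complex structure of two orthogonal forms of equal square.

For forms `a, b` with `q a a = q b b = p` and `q a b = 0` the vector map `u ↦ c ι_{ι_u b} ã`,
`c p / 2 = ±1`, squares to `-1`, reverses `a` and `b` and fixes the forms orthogonal to both.
-/

open scoped BigOperators

namespace Vale.Agent.P247.Ortho

open Vale.Agent.P204.Torus

/-- A form with the two halves of its coordinates exchanged. -/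
noncomputable def swapF (α : Form) : Form := WithLp.toLp 2 fun k => α (sw k)

lemma swapF_swapF (α : Form) : swapF (swapF α) = α := by
  ext k; simp [swapF, sw_sw]

lemma q_swapF (α β : Form) : q (swapF α) (swapF β) = q α β := by
  simp [q, swapF, sw]; ring

lemma iota_neg_left (v : V) (α : Form) : iota (-v) α = -iota v α := by
  rw [← neg_one_smul ℝ v, iota_smul_left, neg_one_smul]

/-- Products of the matrices of two forms. -/
lemma iota_iota_add (u : V) (α β : Form) :
    iota (iota u α) (swapF β) + iota (iota u β) (swapF α) = -(q α β) • u := by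
  funext j
  fin_cases j <;>
    simp [iota, ev_def, swapF, sw, q, e] <;> ring

lemma iota_iota_add' (u : V) (α β : Form) :
    iota (iota u (swapF α)) β + iota (iota u (swapF β)) α = -(q α β) • u := by
  have h := iota_iota_add u (swapF α) (swapF β)
  rwa [swapF_swapF, swapF_swapF, q_swapF] at h

lemma iota_iota_self (u : V) (α : Form) :
    iota (iota u α) (swapF α) = (-(q α α) / 2) • u := by
  have h := iota_iota_add u α α
  funext j
  have := congrFun h j
  simp only [Pi.add_apply, Pi.smul_apply, smul_eq_mul] at this ⊢
  linarith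

lemma iota_iota_self' (u : V) (α : Form) :
    iota (iota u (swapF α)) α = (-(q α α) / 2) • u := by
  have h := iota_iota_self u (swapF α)
  rwa [swapF_swapF, q_swapF] at h

/-- The map of two forms and a scalar. -/
noncomputable def pairJ (a b : Form) (c : ℝ) : V →L[ℝ] V :=
  LinearMap.toContinuousLinearMap
    { toFun := fun u => c • iota (iota u b) (swapF a)
      map_add' := fun u v => by rw [iota_add_left, iota_add_left, smul_add]
      map_smul' := fun r u => by
        rw [iota_smul_left, iota_smul_left, smul_comm, RingHom.id_apply] }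

lemma pairJ_apply (a b : Form) (c : ℝ) (u : V) :
    pairJ a b c u = c • iota (iota u b) (swapF a) := rfl

/-- The conditions on the pair and the scalar. -/
structure PairOK (a b : Form) (c : ℝ) : Prop where
  ab : q a b = 0
  eq : q b b = q a a
  norm : (c * (q a a / 2)) ^ 2 = 1

namespace PairOK

variable {a b : Form} {c : ℝ} (h : PairOK a b c)
include h

lemma iota_J_left (u : V) : iota (pairJ a b c u) a = (-(c * (q a a / 2))) • iota u b := by
  rw [pairJ_apply, iota_smul_left, iota_iota_self', smul_smul]
  congr 1; ring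

lemma iota_J_right (u : V) : iota (pairJ a b c u) b = (c * (q a a / 2)) • iota u a := by
  have h1 := iota_iota_add' (iota u b) a b
  rw [h.ab, neg_zero, zero_smul, iota_iota_self u b, iota_smul_left] at h1
  rw [pairJ_apply, iota_smul_left, eq_neg_of_add_eq_zero_left h1, smul_neg, smul_smul, ← neg_smul,
    h.eq]
  congr 1; ring

lemma ev_J_left (u w : V) : ev a (pairJ a b c u) w = -(c * (q a a / 2)) * ev b u w := by
  rw [← pair_iota, h.iota_J_left, pair_def, ← pair_iota, pair_def]
  simp; ring

lemma ev_J_right (u w : V) : ev b (pairJ a b c u) w = c * (q a a / 2) * ev a u w := by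
  rw [← pair_iota, h.iota_J_right, pair_def, ← pair_iota, pair_def]
  simp; ring

lemma sq (u : V) : pairJ a b c (pairJ a b c u) = -u := by
  rw [pairJ_apply a b c (pairJ a b c u), h.iota_J_right, iota_smul_left, iota_iota_self, smul_smul,
    smul_smul]
  conv_rhs => rw [← neg_one_smul ℝ u]
  congr 1
  linear_combination (-1 : ℝ) * h.norm

lemma ev_self_left (u : V) : ev a u (pairJ a b c u) = 0 := by
  rw [ev_skew, h.ev_J_left, ev_self, mul_zero, neg_zero]

lemma ev_self_right (u : V) : ev b u (pairJ a b c u) = 0 := by
  rw [ev_skew, h.ev_J_right, ev_self, mul_zero, neg_zero]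

lemma pull_left : pull (pairJ a b c) a = -a := by
  refine form_ext fun u v => ?_
  rw [ev_pull, h.ev_J_left, ev_skew b u, h.ev_J_right, ← neg_one_smul ℝ a, ev_smul, ev_skew a v u]
  linear_combination (-(ev a u v)) * h.norm

lemma pull_right : pull (pairJ a b c) b = -b := by
  refine form_ext fun u v => ?_
  rw [ev_pull, h.ev_J_right, ev_skew a u, h.ev_J_left, ← neg_one_smul ℝ b, ev_smul, ev_skew b v u]
  linear_combination (-(ev b u v)) * h.norm

lemma pull_perp {α : Form} (ha : q α a = 0) (hb : q α b = 0) : pull (pairJ a b c) α = α := by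
  refine form_ext fun u v => ?_
  rw [ev_pull]
  set Y := iota (iota u α) (swapF b) with hY
  have h1 : iota (pairJ a b c u) α = c • iota Y a := by
    have e1 := iota_iota_add' (iota u b) a α
    rw [q_comm a α, ha, neg_zero, zero_smul] at e1
    have e2 := iota_iota_add u α b
    rw [hb, neg_zero, zero_smul] at e2
    rw [pairJ_apply, iota_smul_left, eq_neg_of_add_eq_zero_left e1,
      eq_neg_of_add_eq_zero_left (show iota (iota u b) (swapF α) + Y = 0 by rw [add_comm]; exact e2),
      iota_neg_left, neg_neg]
  have h2 : ev α (pairJ a b c u) (pairJ a b c v) = c * ev a Y (pairJ a b c v) := by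
    rw [← pair_iota, h1, pair_def, ← pair_iota, pair_def]
    simp; ring
  have h3 : ev b Y v = -(q b b) / 2 * ev α u v := by
    rw [← pair_iota Y, hY, iota_iota_self', pair_def, ← pair_iota u α, pair_def]
    simp; ring
  rw [h2, ev_skew a Y, h.ev_J_left, ev_skew b v Y, h3, h.eq]
  linear_combination (ev α u v) * h.norm

end PairOK

/-- The dual of a plane. -/
noncomputable def planeForm (u v : V) : Form := swapF (wedge u v)

lemma q_planeForm (α : Form) (u v : V) : q α (planeForm u v) = ev α u v := by
  simp [q, planeForm, swapF, sw, wedge_apply, ev_def, fi, se]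

lemma q_planeForm_self (u v : V) : q (planeForm u v) (planeForm u v) = 0 := by
  simp [q, planeForm, swapF, sw, wedge_apply, fi, se]; ring

lemma planeForm_ne_zero {u v : V} (hu : u ≠ 0) (J : V →L[ℝ] V) (hv : J u = v) (hJv : J v = -u) :
    planeForm u v ≠ 0 := by
  intro h0
  have hk : ∀ k, wedge u v k = 0 := fun k => by
    have := congrArg (fun a : Form => a (sw k)) h0
    simpa [planeForm, swapF, sw_sw] using this
  have hc : ∀ i j, u i * v j = u j * v i := fun i j => by
    have k0 := hk 0
    have k1 := hk 1
    have k2 := hk 2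
    have k3 := hk 3
    have k4 := hk 4
    have k5 := hk 5
    simp [wedge_apply, fi, se] at k0 k1 k2 k3 k4 k5
    fin_cases i <;> fin_cases j <;> simp <;> linarith
  refine hu (funext fun i => ?_)
  have h1 : v i • u = u i • v := funext fun j => by
    simp only [Pi.smul_apply, smul_eq_mul]; linarith [hc j i]
  have h2 := congrArg J h1
  rw [map_smul, map_smul, hv, hJv] at h2
  have e1 := congrFun h1 i
  have e2 := congrFun h2 i
  simp only [Pi.smul_apply, smul_eq_mul, Pi.neg_apply] at e1 e2
  simp only [Pi.zero_apply]
  nlinarith [sq_nonneg (v i), sq_nonneg (u i)]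

/-- A null form orthogonal to a three-dimensional positive space vanishes. -/
lemma eq_zero_of_perp {a : Fin 3 → Form}
    (hpos : ∀ d : Fin 3 → ℝ, d ≠ 0 → 0 < q (∑ i, d i • a i) (∑ i, d i • a i))
    {r : Form} (hr : ∀ i, q r (a i) = 0) (hrr : q r r = 0) : r = 0 := by
  let Φ : (Fin 4 → ℝ) →ₗ[ℝ] Form :=
    { toFun := fun c => c 0 • a 0 + c 1 • a 1 + c 2 • a 2 + c 3 • r
      map_add' := fun x y => by simp only [Pi.add_apply]; module
      map_smul' := fun s x => by simp only [Pi.smul_apply, smul_eq_mul, RingHom.id_apply]; module }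
  obtain ⟨c, hc, hc0⟩ := Submodule.exists_mem_ne_zero_of_ne_bot
    (LinearMap.ker_ne_bot_of_finrank_lt (f := sdPart.comp Φ) (by simp))
  have hc : sdPart (Φ c) = 0 := hc
  set d : Fin 3 → ℝ := ![c 0, c 1, c 2] with hd
  set X := ∑ i, d i • a i with hX
  have e : Φ c = X + c 3 • r := by
    show c 0 • a 0 + c 1 • a 1 + c 2 • a 2 + c 3 • r = _
    simp [hX, hd, Fin.sum_univ_three]
  have hXr : q X r = 0 := by
    simp only [hX, Fin.sum_univ_three, q_add_left, q_smul_left, q_comm (a _) r, hr]
    ring
  have h := q_nonpos_of_sdPart hc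
  rw [e] at h
  simp only [q_add_left, q_add_right, q_smul_left, q_smul_right, q_comm r X, hXr, hrr, mul_zero,
    add_zero] at h
  have hd0 : d = 0 := by
    by_contra hne
    exact absurd (hpos d hne) (not_lt.2 h)
  have hX0 : X = 0 := by simp [hX, hd0]
  have h3 : c 3 ≠ 0 := fun h3 => hc0 (funext fun i => by
    have := congrFun hd0
    fin_cases i
    · simpa [hd] using this 0
    · simpa [hd] using this 1
    · simpa [hd] using this 2
    · simpa using h3)
  rw [e, hX0, zero_add, map_smul, smul_eq_zero_iff_right h3] at hc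
  have h0 : r 0 + r 3 = 0 := by simpa [sdPart] using congrFun hc 0
  have h1 : r 1 + r 4 = 0 := by simpa [sdPart] using congrFun hc 1
  have h2 : r 2 + r 5 = 0 := by simpa [sdPart] using congrFun hc 2
  rw [add_eq_zero_iff_eq_neg'] at h0 h1 h2
  simp only [q, h0, h1, h2] at hrr
  have z0 : r 0 = 0 := by nlinarith [mul_self_nonneg (r 1), mul_self_nonneg (r 2)]
  have z1 : r 1 = 0 := by nlinarith [mul_self_nonneg (r 0), mul_self_nonneg (r 2)]
  have z2 : r 2 = 0 := by nlinarith [mul_self_nonneg (r 0), mul_self_nonneg (r 1)]
  ext k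
  fin_cases k <;> simp [z0, z1, z2, h0, h1, h2]

end Vale.Agent.P247.Ortho
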