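import Vale.Agent.P247.Ortho.Geom
import Vale.Agent.P247.Ortho.Class

/-!
P247, orthogonalisation: one form of a hypersymplectic triple on the four-torus moves within its
class, along a positive segment, to a form orthogonal to the other two.
-/

open MeasureTheory Set Filter Topology
open scoped BigOperators

namespace Vale.Agent.P247.Ortho

open Vale.Agent.P204.Torus

variable {ω : Fin 3 → V → Form}

lemma hs_q_pos (hω : Torus.Hypersymplectic ω) (x : V) {d : Fin 3 → ℝ} (hd : d ≠ 0) :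
    0 < q (∑ i, d i • ω i x) (∑ i, d i • ω i x) := hω.pos x d hd

/-- The orthogonalisation of the third form against the second. -/
noncomputable def bPre (ω : Fin 3 → V → Form) (x : V) : Form :=
  ω 2 x - (q (ω 2 x) (ω 1 x) / q (ω 1 x) (ω 1 x)) • ω 1 x

/-- The orthogonal partner of the second form, with equal square. -/
noncomputable def bPart (ω : Fin 3 → V → Form) (x : V) : Form :=
  Real.sqrt (q (ω 1 x) (ω 1 x) / q (bPre ω x) (bPre ω x)) • bPre ω x

/-- The almost complex structure of the second and third forms, with a sign `s`. -/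
noncomputable def Jpair (s : ℝ) (ω : Fin 3 → V → Form) (x : V) : V →L[ℝ] V :=
  pairJ (ω 1 x) (bPart ω x) (s * (2 / q (ω 1 x) (ω 1 x)))

lemma q_one_pos (hω : Torus.Hypersymplectic ω) (x : V) : 0 < q (ω 1 x) (ω 1 x) := by
  have h := hs_q_pos hω x (d := ![0, 1, 0]) (fun h => by simpa using congrFun h 1)
  simpa [Fin.sum_univ_three] using h

lemma q_zero_pos (hω : Torus.Hypersymplectic ω) (x : V) : 0 < q (ω 0 x) (ω 0 x) := by
  have h := hs_q_pos hω x (d := ![1, 0, 0]) (fun h => by simpa using congrFun h 0)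
  simpa [Fin.sum_univ_three] using h

lemma q_bPre_pos (hω : Torus.Hypersymplectic ω) (x : V) : 0 < q (bPre ω x) (bPre ω x) := by
  have h := hs_q_pos hω x (d := ![0, -(q (ω 2 x) (ω 1 x) / q (ω 1 x) (ω 1 x)), 1])
    (fun h => by simpa using congrFun h 2)
  have e : bPre ω x = (-(q (ω 2 x) (ω 1 x) / q (ω 1 x) (ω 1 x))) • ω 1 x + ω 2 x := by
    rw [bPre]; module
  rw [e]
  simpa [Fin.sum_univ_three] using h

lemma pairOK (hω : Torus.Hypersymplectic ω) {s : ℝ} (hs : s = 1 ∨ s = -1) (x : V) :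
    PairOK (ω 1 x) (bPart ω x) (s * (2 / q (ω 1 x) (ω 1 x))) := by
  have hp := q_one_pos hω x
  have hb := q_bPre_pos hω x
  refine ⟨?_, ?_, ?_⟩
  · have h0 : q (ω 1 x) (bPre ω x) = 0 := by
      rw [bPre, q_sub_right, q_smul_right, q_comm (ω 2 x) (ω 1 x), div_mul_cancel₀ _ hp.ne',
        sub_self]
    rw [bPart, q_smul_right, h0, mul_zero]
  · rw [bPart, q_smul_left, q_smul_right, ← mul_assoc, Real.mul_self_sqrt (by positivity),
      div_mul_cancel₀ _ hb.ne']
  · rw [show s * (2 / q (ω 1 x) (ω 1 x)) * (q (ω 1 x) (ω 1 x) / 2) = s by field_simp]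
    rcases hs with rfl | rfl <;> norm_num

lemma two_eq (hω : Torus.Hypersymplectic ω) (x : V) :
    ∃ r t : ℝ, ω 2 x = r • ω 1 x + t • bPart ω x := by
  have hp := q_one_pos hω x
  have hb := q_bPre_pos hω x
  set k := Real.sqrt (q (ω 1 x) (ω 1 x) / q (bPre ω x) (bPre ω x)) with hk
  have hk0 : k ≠ 0 := (Real.sqrt_pos.2 (div_pos hp hb)).ne'
  refine ⟨q (ω 2 x) (ω 1 x) / q (ω 1 x) (ω 1 x), k⁻¹, ?_⟩
  rw [bPart, ← hk, smul_smul, inv_mul_cancel₀ hk0, one_smul, bPre]
  module

lemma smooth_bPre (hω : Torus.Hypersymplectic ω) : Smooth (bPre ω) :=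
  ⟨(hω.smooth 2).smooth.sub (((Torus.contDiff_q (hω.smooth 2).smooth (hω.smooth 1).smooth).div
    (Torus.contDiff_q (hω.smooth 1).smooth (hω.smooth 1).smooth)
      fun x => (q_one_pos hω x).ne').smul (hω.smooth 1).smooth),
    fun x n => by simp only [bPre, fun i => (hω.smooth i).periodic x n]⟩

lemma smooth_bPart (hω : Torus.Hypersymplectic ω) : Smooth (bPart ω) := by
  have hb := smooth_bPre hω
  refine ⟨((((Torus.contDiff_q (hω.smooth 1).smooth (hω.smooth 1).smooth).div
    (Torus.contDiff_q hb.smooth hb.smooth) fun x => (q_bPre_pos hω x).ne').sqrt fun x =>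
      (div_pos (q_one_pos hω x) (q_bPre_pos hω x)).ne')).smul hb.smooth, fun x n => ?_⟩
  simp only [bPart, hb.periodic x n, (hω.smooth 1).periodic x n]

lemma contDiff_iota {f : V → Form} {v : V → V} (hv : ContDiff ℝ (⊤ : ℕ∞) v)
    (hf : ContDiff ℝ (⊤ : ℕ∞) f) : ContDiff ℝ (⊤ : ℕ∞) fun x => iota (v x) (f x) :=
  contDiff_pi.2 fun _ => contDiff_ev hf hv contDiff_const

lemma smooth_Jpair (hω : Torus.Hypersymplectic ω) (s : ℝ) : Smooth (Jpair s ω) := by
  refine ⟨contDiff_clm_apply_iff.2 fun u => ?_, fun x n => ?_⟩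
  · simp only [Jpair, pairJ_apply]
    refine (contDiff_const.mul (contDiff_const.div (Torus.contDiff_q (hω.smooth 1).smooth
      (hω.smooth 1).smooth) fun x => (q_one_pos hω x).ne')).smul ?_
    refine contDiff_iota (contDiff_iota contDiff_const (smooth_bPart hω).smooth) ?_
    exact contDiff_form.2 fun k => contDiff_form.1 (hω.smooth 1).smooth (sw k)
  · simp only [Jpair, (hω.smooth 1).periodic x n, (smooth_bPart hω).periodic x n]

/-- The sign making the first form tame the structure of the other two. -/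
lemma exists_tamed (hω : Torus.Hypersymplectic ω) :
    ∃ s : ℝ, (s = 1 ∨ s = -1) ∧ ∀ x u, u ≠ 0 → 0 < ev (ω 0 x) u (Jpair s ω x u) := by
  set f : V × V → ℝ := fun p => ev (ω 0 p.1) p.2 (Jpair 1 ω p.1 p.2) with hf
  have hJ := smooth_Jpair hω 1
  have hne : ∀ x u, u ≠ 0 → f (x, u) ≠ 0 := fun x u hu h0 => by
    have hok := pairOK hω (Or.inl rfl) x
    refine planeForm_ne_zero hu (Jpair 1 ω x) rfl (hok.sq u) ?_
    refine eq_zero_of_perp (a := fun i => ω i x) (fun d hd => hs_q_pos hω x hd) (fun i => ?_)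
      (q_planeForm_self _ _)
    rw [q_comm, q_planeForm]
    have h1 : ev (ω 1 x) u (Jpair 1 ω x u) = 0 := hok.ev_self_left u
    have h2 : ev (bPart ω x) u (Jpair 1 ω x u) = 0 := hok.ev_self_right u
    fin_cases i
    · exact h0
    · exact h1
    · obtain ⟨r, t, he⟩ := two_eq hω x
      show ev (ω 2 x) u (Jpair 1 ω x u) = 0
      rw [he, ev_add, ev_smul, ev_smul, h1, h2, mul_zero, mul_zero, add_zero]
  have hcont : Continuous f := by
    simp only [hf]
    exact continuous_ev_comp ((hω.smooth 0).smooth.continuous.comp continuous_fst) continuous_snd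
      ((hJ.smooth.continuous.comp continuous_fst).clm_apply continuous_snd)
  have hconn : IsPreconnected ((univ : Set V) ×ˢ ({0}ᶜ : Set V)) :=
    isPreconnected_univ.prod (isConnected_compl_singleton_of_one_lt_rank
      (by rw [← Module.finrank_eq_rank]; norm_num) 0).isPreconnected
  have hs : ∀ s : ℝ, ∀ x u, ev (ω 0 x) u (Jpair s ω x u) = s * f (x, u) := fun s x u => by
    simp only [hf, Jpair, pairJ_apply, ev_smul_right]
    ring
  have hone : ((0 : V), e 0) ∈ (univ : Set V) ×ˢ ({0}ᶜ : Set V) :=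
    ⟨trivial, fun h => by simpa [e] using congrFun h 0⟩
  rcases lt_or_gt_of_ne (hne 0 (e 0) hone.2) with hn | hp
  · refine ⟨-1, Or.inr rfl, fun x u hu => ?_⟩
    rw [hs]
    by_contra hle
    obtain ⟨p, hp, hp0⟩ := hconn.intermediate_value hone
      (show (x, u) ∈ (univ : Set V) ×ˢ ({0}ᶜ : Set V) from ⟨trivial, hu⟩) hcont.continuousOn
      ⟨hn.le, show 0 ≤ f (x, u) by linarith⟩
    exact hne p.1 p.2 hp.2 hp0
  · refine ⟨1, Or.inl rfl, fun x u hu => ?_⟩
    rw [hs]
    by_contra hle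
    obtain ⟨p, hp', hp0⟩ := hconn.intermediate_value
      (show (x, u) ∈ (univ : Set V) ×ˢ ({0}ᶜ : Set V) from ⟨trivial, hu⟩) hone hcont.continuousOn
      ⟨show f (x, u) ≤ 0 by linarith, hp.le⟩
    exact hne p.1 p.2 hp'.2 hp0

/-- One step of the orthogonalisation. -/
theorem exists_orth_step (hω : Torus.Hypersymplectic ω) (hn : Torus.Normalized ω) :
    ∃ α, Torus.Coh (ω 0) α ∧ (∀ x, q (α x) (ω 1 x) = 0 ∧ q (α x) (ω 2 x) = 0) ∧
      Torus.SegPos ω ![α, ω 1, ω 2] := by
  obtain ⟨s, hs, ht⟩ := exists_tamed hω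
  let S : Setup :=
    { J := Jpair s ω
      om := ω 0
      J_smooth := smooth_Jpair hω s
      J_sq := fun x u => (pairOK hω hs x).sq u
      om_smooth := hω.smooth 0
      tames := ht
      orient := q_zero_pos hω }
  have hanti : ∀ x, piP (S.J x) (ω 1 x) = 0 ∧ piP (S.J x) (ω 2 x) = 0 := fun x => by
    have h := pairOK hω hs x
    have e1 : piP (S.J x) (ω 1 x) = 0 := by
      show (1 / 2 : ℝ) • (ω 1 x + pull (Jpair s ω x) (ω 1 x)) = 0
      rw [Jpair, h.pull_left, add_neg_cancel, smul_zero]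
    have e2 : piP (S.J x) (bPart ω x) = 0 := by
      show (1 / 2 : ℝ) • (bPart ω x + pull (Jpair s ω x) (bPart ω x)) = 0
      rw [Jpair, h.pull_right, add_neg_cancel, smul_zero]
    obtain ⟨r, t, he⟩ := two_eq hω x
    exact ⟨e1, by rw [he, piP_add, piP_smul, piP_smul, e1, e2, smul_zero, smul_zero, add_zero]⟩
  have hq : ∀ i j, q (Torus.mean (ω i)) (Torus.mean (ω j)) = if i = j then 1 else 0 := fun i j => by
    rw [← Torus.int_q (hω.smooth i) (hω.closed i) (hω.smooth j) (hω.closed j)]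
    exact hn i j
  have hcs : ClassSetup S fun i => Torus.mean (ω i) := by
    refine ⟨hq, hω.closed 0, rfl, fun i hi => ⟨ω i, hω.smooth i, hω.closed i, rfl, fun x => ?_⟩⟩
    fin_cases i
    · exact absurd rfl hi
    · exact (hanti x).1
    · exact (hanti x).2
  obtain ⟨α, hα, hmα⟩ := exists_compatible_class hcs
  have hperp : ∀ x, q (α x) (ω 1 x) = 0 ∧ q (α x) (ω 2 x) = 0 := fun x => by
    constructor <;> rw [S.q_inv_piP (hα.1.2.2 x)] <;> simp [hanti x, q_zero_right]
  refine ⟨α, Torus.coh_of_mean_eq (hω.smooth 0) (hω.closed 0) hα.1.1 hα.1.2.1 hmα.symm, hperp, ?_⟩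
  intro r hr x d hd
  set β := (1 - r) • ω 0 x + r • α x with hβ
  set R := d 1 • ω 1 x + d 2 • ω 2 x with hR
  have eX : (1 - r) • Torus.comb d ω x + r • Torus.comb d ![α, ω 1, ω 2] x = d 0 • β + R := by
    simp only [Torus.comb, Fin.sum_univ_three, Matrix.cons_val_zero, Matrix.cons_val_one,
      Matrix.cons_val_two, Matrix.tail_cons, Matrix.head_cons, hβ, hR]
    module
  rw [eX]
  rcases eq_or_ne (d 0) 0 with h0 | h0
  · rw [h0, zero_smul, zero_add, hR]
    have h := hs_q_pos hω x hd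
    simpa [Fin.sum_univ_three, h0] using h
  set P := (1 - r) • S.Om x + r • α x with hP
  have hαP : piP (S.J x) (α x) = α x := S.piP_eq_self (hα.1.2.2 x)
  have hpP : piP (S.J x) (d 0 • β + R) = d 0 • P := by
    rw [hR, piP_add, piP_add, piP_smul, piP_smul, piP_smul, (hanti x).1, (hanti x).2, hβ,
      piP_add, piP_smul, piP_smul, hαP]
    simp only [smul_zero, add_zero]
    rfl
  have hPP : 0 < q P P := by
    have hαpsd : S.Psd x (α x) := ⟨hα.1.2.2 x, fun u => by
      rcases eq_or_ne u 0 with rfl | hu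
      · simp [ev_def]
      · exact (hα.2 x u hu).le⟩
    have h1 : 0 < q (S.Om x) (S.Om x) := S.q_Om_self_pos x
    have h2 : 0 < q (α x) (S.Om x) := by
      have := q_om_pos hα x
      rwa [S.q_inv_piP (hα.1.2.2 x)] at this
    have h3 : 0 < q (α x) (α x) := lt_of_le_of_ne (S.q_psd_psd hαpsd hαpsd)
      (Main.q_self_ne_zero (hα.2 x)).symm
    simp only [hP, q_add_left, q_add_right, q_smul_left, q_smul_right, q_comm (S.Om x) (α x)]
    have hr0 : 0 ≤ r := hr.1
    have hr1 : 0 ≤ 1 - r := by linarith [hr.2]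
    rcases eq_or_lt_of_le hr1 with h | h
    · obtain rfl : r = 1 := by linarith
      linarith
    · have := mul_pos (mul_pos h h) h1
      have := mul_nonneg (mul_nonneg hr1 hr0) h2.le
      have := mul_nonneg (mul_nonneg hr0 hr0) h3.le
      nlinarith
  obtain ⟨c, hc, hanti'⟩ := S.exists_q_anti
  rw [S.q_decomp x, hpP, q_smul_left, q_smul_right]
  have h4 : 0 ≤ q (piM (S.J x) (d 0 • β + R)) (piM (S.J x) (d 0 • β + R)) :=
    (mul_nonneg hc.le (sq_nonneg _)).trans (hanti' x _ (S.piP_piM x _))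
  have h5 := mul_pos (mul_self_pos.2 h0) hPP
  linarith

end Vale.Agent.P247.Ortho
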