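import Vale.Agent.P247.Torus.Main
import Vale.Agent.P247.Ortho.Step

/-!
P247, orthogonalisation: every normalized hypersymplectic triple on the four-torus has a
cohomologous deformation to a pointwise orthogonal triple.
-/

open MeasureTheory Set Filter Topology
open scoped BigOperators

namespace Vale.Agent.P247.Ortho

open Vale.Agent.P204.Torus

/-- A triple is pointwise orthogonal: its three forms are pairwise orthogonal for the wedge. -/
def PointwiseOrthogonal (τ : Fin 3 → V → Form) : Prop :=
  ∀ x i j, i ≠ j → q (τ i x) (τ j x) = 0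

/-- Every normalized hypersymplectic triple deforms within its classes to an orthogonal one. -/
theorem exists_orthogonal_deformation {ω : Fin 3 → V → Form} (hω : Torus.Hypersymplectic ω)
    (hn : Torus.Normalized ω) :
    ∃ W, Torus.CohomologousDeformation ω W ∧ PointwiseOrthogonal (W 1) := by
  obtain ⟨α, hα, hαp, hseg⟩ := exists_orth_step hω hn
  -- the second step, with the first two indices exchanged
  set σ : Fin 3 → V → Form := ![α, ω 1, ω 2]
  have hσc : ∀ i, Torus.Coh (ω i) (σ i) := fun i => by
    fin_cases i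
    · exact hα
    · exact Torus.Coh.refl _
    · exact Torus.Coh.refl _
  set ρ : Fin 3 → V → Form := ![ω 1, α, ω 2]
  have hρσ : ∀ (d : Fin 3 → ℝ) x, Torus.comb d ρ x = Torus.comb ![d 1, d 0, d 2] σ x := fun d x => by
    simp only [Torus.comb, Fin.sum_univ_three, ρ, σ, Matrix.cons_val_zero, Matrix.cons_val_one,
      Matrix.cons_val_two, Matrix.tail_cons, Matrix.head_cons]
    abel
  have hσs : ∀ i, Smooth (σ i) := fun i => (hσc i).smooth (hω.smooth i)
  have hσcl : ∀ i, Closed (σ i) := fun i => (hσc i).closed (hω.smooth i) (hω.closed i)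
  have hσpos : ∀ x, ∀ d : Fin 3 → ℝ, d ≠ 0 → 0 < q (Torus.comb d σ x) (Torus.comb d σ x) :=
    fun x d hd => by simpa using hseg 1 ⟨zero_le_one, le_rfl⟩ x d hd
  have hperm : ∀ d : Fin 3 → ℝ, d ≠ 0 → (![d 1, d 0, d 2] : Fin 3 → ℝ) ≠ 0 := fun d hd h => by
    refine hd (funext fun i => ?_)
    fin_cases i
    · simpa using congrFun h 1
    · simpa using congrFun h 0
    · simpa using congrFun h 2
  have hρ : Torus.Hypersymplectic ρ := by
    refine ⟨fun i => ?_, fun i => ?_, fun x d hd => ?_⟩
    · fin_cases i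
      · exact hσs 1
      · exact hσs 0
      · exact hσs 2
    · fin_cases i
      · exact hσcl 1
      · exact hσcl 0
      · exact hσcl 2
    · rw [hρσ]
      exact hσpos x _ (hperm d hd)
  have hmσ : ∀ i, Torus.mean (σ i) = Torus.mean (ω i) := fun i => (hσc i).mean_eq (hω.smooth i)
  have hnσ : ∀ i j, ∫ x in cube, q (σ i x) (σ j x) = if i = j then 1 else 0 := fun i j => by
    rw [Torus.int_q (hσs i) (hσcl i) (hσs j) (hσcl j), hmσ i, hmσ j,
      ← Torus.int_q (hω.smooth i) (hω.closed i) (hω.smooth j) (hω.closed j)]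
    exact hn i j
  have hnρ : Torus.Normalized ρ := fun i j => by
    have h : ∀ i, ρ i = σ ((![1, 0, 2] : Fin 3 → Fin 3) i) := fun i => by fin_cases i <;> rfl
    rw [h i, h j, hnσ]
    fin_cases i <;> fin_cases j <;> rfl
  obtain ⟨β, hβ, hβp, hseg'⟩ := exists_orth_step hρ hnρ
  set τ : Fin 3 → V → Form := ![α, β, ω 2]
  have hτc : ∀ i, Torus.Coh (ω i) (τ i) := fun i => by
    fin_cases i
    · exact hα
    · exact hβ
    · exact Torus.Coh.refl _
  have hseg2 : Torus.SegPos σ τ := fun r hr x d hd => by
    have h := hseg' r hr x ![d 1, d 0, d 2] (hperm d hd)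
    convert h using 2 <;>
    · simp only [Torus.comb, Fin.sum_univ_three, σ, τ, ρ, Matrix.cons_val_zero,
        Matrix.cons_val_one, Matrix.cons_val_two, Matrix.tail_cons, Matrix.head_cons]
      abel
  obtain ⟨W, hW, hW1⟩ := Torus.deformation_of_segments hω hσc hτc hseg hseg2
  refine ⟨W, hW, fun x i j hij => ?_⟩
  rw [hW1]
  have h01 : q (α x) (β x) = 0 := by
    rw [q_comm]
    exact (hβp x).1
  have h02 : q (α x) (ω 2 x) = 0 := (hαp x).2
  have h12 : q (β x) (ω 2 x) = 0 := (hβp x).2
  fin_cases i <;> fin_cases j <;>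
    first
      | exact absurd rfl hij
      | exact h01
      | exact h02
      | exact h12
      | (rw [q_comm]; first | exact h01 | exact h02 | exact h12)

end Vale.Agent.P247.Ortho
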