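import Vale.Agent.P247.Ortho.Energy
import Vale.Agent.P204.Torus.Mono

/-!
P247, orthogonalisation: almost monotonicity (adapted from `Vale.Agent.P204.Torus.Mono`).
-/

open MeasureTheory Filter Topology
open scoped BigOperators

namespace Vale.Agent.P247.Ortho

open Vale.Agent.P204.Torus
open UData (integrable_app)

namespace CData

variable {S : Setup} {T : Current S} {u : Form} (D : CData T u)

lemma U_closed_diff {α β : V → Form} (hα : Smooth α) (hβ : Smooth β) (cα : Closed α)
    (cβ : Closed β) (hm : Torus.mean α = Torus.mean β) :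
    Smooth (fun x => α x - β x) ∧ D.Sf (fun x => α x - β x) = T.app β - T.app α := by
  have hs : Smooth ((-1 : ℝ) • β) := ⟨hβ.smooth.const_smul (-1 : ℝ), fun x n => by
    simp only [Pi.smul_apply, hβ.periodic x n]⟩
  have e : (fun x => α x - β x) = α + (-1 : ℝ) • β := funext fun x => by
    simp [sub_eq_add_neg]
  refine ⟨⟨hα.smooth.sub hβ.smooth, fun x n => by simp only [hα.periodic x n, hβ.periodic x n]⟩,
    ?_⟩
  have happ : T.app (fun x => α x - β x) = T.app α - T.app β := by
    simp only [Current.app, q_sub_right]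
    exact integral_sub (integrable_app hα) (integrable_app hβ)
  rw [Sf, happ, e, D.add α _ hα hs, D.smul _ β hβ, D.closed α hα cα, D.closed β hβ cβ, hm]
  ring

/-- Almost monotonicity. -/
lemma exists_mono_two (hd : T.DensBound) (L : D.SLimit) : ∃ C, 0 < C ∧
    ∀ r R, 0 < r → r ≤ R → R ≤ 1 → ∀ y,
      |(T.Th r y + T.Kk r y) - (T.Th R y + T.Kk R y)| ≤ C * Real.sqrt R := by
  obtain ⟨A, hA0, hA⟩ := S.exists_al_diff
  obtain ⟨W, hW⟩ := T.exists_int_three_halves hd
  obtain ⟨Cs, hCs⟩ := L.Sf_bound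
  set P := sinPowMass ((3 : ℕ) / 4 : ℝ) ^ 4
  have hP0 : 0 ≤ P := le_trans (integral_nonneg fun x => by
    have := dist0_nonneg (x - 0)
    positivity) (integral_invPow_le (0 : V) (by norm_num : 3 < 4))
  have hW0 : 0 ≤ W := le_trans (integral_nonneg fun z => by
    have := dist0_nonneg (z - 0)
    positivity) (hW 0).2
  refine ⟨A * W + |Cs| * (A * Real.sqrt P) + 1, by positivity, fun r R hr hrR hR y => ?_⟩
  have hR0 : 0 < R := hr.trans_le hrR
  obtain ⟨hir, her⟩ := T.app_al hr (hrR.trans hR) y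
  obtain ⟨hiR, heR⟩ := T.app_al hR0 hR y
  obtain ⟨hsm, hSf⟩ := D.U_closed_diff (S.smooth_al hr y) (S.smooth_al hR0 y)
    (S.closed_al hr y) (S.closed_al hR0 y)
    ((Torus.mean_d1 (S.smooth_prim hr y)).trans (Torus.mean_d1 (S.smooth_prim hR0 y)).symm)
  have hX : ∀ z, Real.sqrt R / (dist0 (z - y) * Real.sqrt (dist0 (z - y))) =
      Real.sqrt R * (dist0 (z - y) * Real.sqrt (dist0 (z - y)))⁻¹ := fun z => div_eq_mul_inv _ _
  -- the error
  have h1 : |∫ z, S.alErr r y z (T.h z) ∂T.ν - ∫ z, S.alErr R y z (T.h z) ∂T.ν| ≤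
      A * W * Real.sqrt R := by
    rw [← integral_sub hir hiR]
    refine (abs_integral_le_integral_abs).trans ?_
    refine (integral_mono_of_nonneg (Filter.Eventually.of_forall fun z => abs_nonneg _)
      (((hW y).1.const_mul (Real.sqrt R)).const_mul A) (Filter.Eventually.of_forall fun z => ?_)).trans ?_
    · exact ((hA r R hr hrR hR y z).2 (T.h z) (T.psd z) (T.trace z)).trans_eq (by rw [hX])
    · rw [integral_const_mul, integral_const_mul]
      calc A * (Real.sqrt R * ∫ z, (dist0 (z - y) * Real.sqrt (dist0 (z - y)))⁻¹ ∂T.ν)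
          ≤ A * (Real.sqrt R * W) := by gcongr; exact (hW y).2
        _ = _ := by ring
  -- the anti-invariant part
  have h2 : |D.Sf (fun x => S.al r y x - S.al R y x)| ≤ |Cs| * (A * Real.sqrt P) * Real.sqrt R := by
    refine (hCs _ hsm).trans ((mul_le_mul_of_nonneg_right (le_abs_self Cs) (l2_nonneg _)).trans ?_)
    rw [mul_assoc]
    refine mul_le_mul_of_nonneg_left ?_ (abs_nonneg _)
    rw [l2, show A * Real.sqrt P * Real.sqrt R = Real.sqrt (A ^ 2 * R * P) by
      rw [Real.sqrt_mul (by positivity), Real.sqrt_mul (sq_nonneg A), Real.sqrt_sq hA0.le]; ring]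
    refine Real.sqrt_le_sqrt ?_
    refine (integral_mono_of_nonneg (Filter.Eventually.of_forall fun x => sq_nonneg _)
      ((integrable_invPow y (by norm_num : 3 < 4)).const_mul (A ^ 2 * R))
      (Filter.Eventually.of_forall fun x => ?_)).trans ?_
    · refine (pow_le_pow_left₀ (norm_nonneg _) (hA r R hr hrR hR y x).1 2).trans_eq ?_
      rw [mul_pow, div_pow, mul_pow, Real.sq_sqrt hR0.le, Real.sq_sqrt (dist0_nonneg _)]
      ring
    · rw [integral_const_mul]
      exact mul_le_mul_of_nonneg_left (integral_invPow_le y (by norm_num : 3 < 4)) (by positivity)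
  rw [hSf, her, heR] at h2
  have hs : 0 ≤ Real.sqrt R := Real.sqrt_nonneg R
  have k0 : 0 ≤ A * W * Real.sqrt R := by positivity
  have k1 : 0 ≤ |Cs| * (A * Real.sqrt P) * Real.sqrt R := by positivity
  rw [abs_le] at h1 h2 ⊢
  constructor <;> nlinarith

/-- The density has a limit and the transverse part is bounded. -/
lemma exists_limit (hd : T.DensBound) (L : D.SLimit) : ∃ C, 0 < C ∧
    (∀ r, 0 < r → r ≤ 1 → ∀ y, T.Th r y ≤ C ∧ T.Kk r y ≤ C) ∧
      ∀ y, ∃ l, Tendsto (fun k => T.Th (scale k) y) atTop (𝓝 l) :=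
  T.exists_limit_of_mono (D.exists_mono_two hd L)

/-- The transverse integrals at the dyadic scales are summable, hence vanish. -/
lemma tendsto_transverse (hd : T.DensBound) (L : D.SLimit) :
    Tendsto (fun k => ∫ y, ∫ z, S.th3 (scale k) y z *
      S.B z (T.h z) (sv (z - y)) (sv (z - y)) ∂T.ν ∂T.ν) atTop (𝓝 0) :=
  T.tendsto_transverse_of_mono (D.exists_mono_two hd L)


end CData

end Vale.Agent.P247.Ortho
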