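import Vale.Agent.P247.Ortho.CData
import Vale.Agent.P204.Torus.Phase1
import Vale.Agent.P247.Torus.Wedge

/-!
P247, orthogonalisation: the first estimate for a current of class `u` with `q u u ≤ 0` (adapted from
`Vale.Agent.P204.Torus.Phase1`).
-/

open MeasureTheory Filter Topology
open scoped BigOperators

namespace Vale.Agent.P247.Ortho

open Vale.Agent.P204.Torus
open UData (continuous_reg)

namespace CData

variable {S : Setup} {T : Current S} {u : Form} (D : CData T u)

lemma continuous_Se {ε : ℝ} (hε : 0 < ε) (h1 : ε ≤ 1) : Continuous (D.Se ε) :=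
  (D.Ue_cont ε hε h1).sub (continuous_reg hε)

/-- The monotonicity formula at a single scale. -/
lemma exists_mono : ∃ C ε₀, 0 < C ∧ 0 < ε₀ ∧ ε₀ ≤ 1 ∧ ∀ r, 0 < r → r ≤ ε₀ → ∀ y,
    T.dens r y ≤ C * (∫ z, 1 / (r + dist0 (z - y)) ∂T.ν + l2 (D.Se r)) := by
  obtain ⟨c, C1, hc, hC1, htest⟩ := S.exists_test_integral
  obtain ⟨Ca, hCa, hal⟩ := S.exists_al_bounds
  obtain ⟨Cp, hCp, hproj⟩ := S.exists_proj_bound
  obtain ⟨Cc, e0, he0, hcomm⟩ := D.comm
  obtain ⟨Ch, hCh, hh⟩ := T.exists_h_bound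
  set M2 := sinPowMass ((2 : ℕ) / 4) ^ 4
  set Cc' := max Cc 1
  have hCc' : 1 ≤ Cc' := le_max_right _ _
  set C2 := 6 * Cp * Ca * (2 * Cc' + 1) * √M2 with hC2
  refine ⟨(C1 + C2 + 1) / c, min e0 1, ?_, lt_min he0 one_pos, min_le_right _ _,
    fun r hr hr0 y => ?_⟩
  · have : 0 ≤ C2 := by rw [hC2]; positivity
    positivity
  have hre : r ≤ e0 := hr0.trans (min_le_left _ _)
  have hr1 : r ≤ 1 := hr0.trans (min_le_right _ _)
  set a := S.al r y
  have ha : Smooth a := S.smooth_al hr y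
  have hac : Continuous a := ha.smooth.continuous
  obtain ⟨Ma, hMa, haM⟩ := exists_bound hac ha.periodic
  obtain ⟨Mk, hMk, hkM⟩ := exists_bound (continuous_ker hr) (ker_periodic hr)
  have hreg := continuous_reg (T := T) hr
  have hS := D.continuous_Se hr hr1
  have hzero : ∫ x, q (D.Ue r x) (a x) ∂cubeVol = 0 := by
    refine (D.Ue_closed r hr hr1 a ha (S.closed_al hr y)).trans ?_
    rw [show Torus.mean a = 0 from Torus.mean_d1 (S.smooth_prim hr y), q_zero_right]
  have hTi : Integrable (fun x => q (T.reg r x) (a x)) cubeVol :=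
    integrable_cube_of_continuous (Setup.continuous_q hreg hac)
  have hSi : Integrable (fun x => q (D.Se r x) (a x)) cubeVol :=
    integrable_cube_of_continuous (Setup.continuous_q hS hac)
  have hsplit : ∫ x, q (T.reg r x) (a x) ∂cubeVol + ∫ x, q (D.Se r x) (a x) ∂cubeVol = 0 := by
    rw [← integral_add hTi hSi, ← hzero]
    exact integral_congr_ae (Filter.Eventually.of_forall fun x => by
      simp only [Se, q_sub_left]; ring)
  -- the regularised current
  have hFm : Measurable (Function.uncurry fun x z => ker r (x - z) * q (T.h z) (a x)) :=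
    ((continuous_ker hr).comp (by fun_prop)).measurable.mul (by
      have h1 : Measurable fun p : V × V => T.h p.2 := T.meas.comp measurable_snd
      have h2 : Measurable fun p : V × V => a p.1 := hac.measurable.comp measurable_fst
      exact (Setup.continuous_q continuous_fst continuous_snd).measurable.comp (h1.prodMk h2))
  have hFb : ∀ x z, |ker r (x - z) * q (T.h z) (a x)| ≤ Mk * (6 * (Ch * Ma)) := fun x z => by
    rw [abs_mul]
    refine mul_le_mul ((Real.norm_eq_abs _).symm.trans_le (hkM _)) ((abs_q_le _ _).trans ?_)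
      (abs_nonneg _) hMk.le
    gcongr
    · exact hh z
    · exact haM x
  have hreg' : ∫ x, q (T.reg r x) (a x) ∂cubeVol =
      ∫ z, ∫ x, ker r (x - z) * q (T.h z) (a x) ∂cubeVol ∂T.ν := by
    rw [← T.integral_swap hFm hFb]
    exact integral_congr_ae (Filter.Eventually.of_forall fun x =>
      T.q_smoothing (continuous_ker hr) (ker_periodic hr) (a x) x)
  have hi1 : Integrable (fun z => r ^ 2 / (r ^ 2 + dist0 (z - y) ^ 2) ^ 2) T.ν := by
    simp only [Current.dens_integrand]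
    exact (T.integrable_phi_sub hr y 2).const_mul _
  have hi2 : Integrable (fun z => 1 / (r + dist0 (z - y))) T.ν :=
    T.integrable_bounded (continuous_inv_add hr y).aestronglyMeasurable fun z =>
      abs_inv_add_le hr (z - y)
  have hi3 : Integrable (fun z => ∫ x, ker r (x - z) * q (T.h z) (a x) ∂cubeVol) T.ν :=
    (Integrable.of_bound (μ := cubeVol.prod T.ν) hFm.aestronglyMeasurable (Mk * (6 * (Ch * Ma)))
      (Filter.Eventually.of_forall fun p =>
        (Real.norm_eq_abs _).trans_le (hFb p.1 p.2))).integral_prod_right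
  have hlow : c * T.dens r y - C1 * ∫ z, 1 / (r + dist0 (z - y)) ∂T.ν ≤
      ∫ x, q (T.reg r x) (a x) ∂cubeVol := by
    rw [hreg', Current.dens, ← integral_const_mul, ← integral_const_mul,
      ← integral_sub (hi1.const_mul c) (hi2.const_mul C1)]
    exact integral_mono ((hi1.const_mul c).sub (hi2.const_mul C1)) hi3
      fun z => htest r hr hr1 y z (T.h z) (T.psd z) (T.trace z)
  -- the anti-invariant part
  set g : V → ℝ := fun x => 1 / (r + dist0 (x - y)) with hg
  have hgc : Continuous g := continuous_const.div (continuous_const.add (continuous_dist0.comp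
      (continuous_id.sub continuous_const))) fun x => by
    have := dist0_nonneg (x - y)
    positivity
  have hP : Continuous fun x => piP (S.J x) (D.Se r x) := continuous_piP hS
  have hpt : ∀ x, |q (D.Se r x) (a x)| ≤
      6 * Cp * Ca * (2 / r * (‖piP (S.J x) (D.Se r x)‖ * g x) + ‖D.Se r x‖ * g x) := by
    intro x
    obtain ⟨h1, h2, -⟩ := hal r hr hr1 y x
    set d := dist0 (x - y)
    have hd : 0 ≤ d := dist0_nonneg _
    have hA : ‖piP (S.J x) (a x)‖ ≤ Cp * (Ca * (2 / r * g x)) := by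
      refine (hproj x _).1.trans (mul_le_mul_of_nonneg_left (h1.trans ?_) hCp.le)
      rw [div_eq_mul_one_div]
      refine mul_le_mul_of_nonneg_left ?_ hCa.le
      simp only [hg]
      rw [div_mul_div_comm, div_le_div_iff₀ (by positivity) (by positivity)]
      nlinarith [sq_nonneg (r - d)]
    have hB : ‖piM (S.J x) (a x)‖ ≤ Ca * g x := h2.trans_eq (by simp only [hg]; ring)
    rw [S.q_decomp x]
    refine (abs_add_le _ _).trans ?_
    have k1 := (abs_q_le (piP (S.J x) (D.Se r x)) (piP (S.J x) (a x))).trans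
      (mul_le_mul_of_nonneg_left (mul_le_mul_of_nonneg_left hA (norm_nonneg _)) (by norm_num))
    have k2 := (abs_q_le (piM (S.J x) (D.Se r x)) (piM (S.J x) (a x))).trans
      (mul_le_mul_of_nonneg_left (mul_le_mul (hproj x (D.Se r x)).2 hB (norm_nonneg _)
        (by positivity)) (by norm_num))
    have hg0 : 0 ≤ g x := by simp only [hg]; positivity
    linarith
  have hg2 : ∫ x, g x ^ 2 ∂cubeVol ≤ M2 := by
    refine (integral_mono_ae (integrable_cube_of_continuous (hgc.pow 2))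
      (integrable_invPow y (by norm_num : 2 < 4)) ?_).trans (integral_invPow_le y (by norm_num))
    refine (ae_sin_ne_zero y).mono fun x hx => ?_
    have hd : 0 < dist0 (x - y) ^ 2 :=
      lt_of_lt_of_le (by
        have := div_ne_zero (hx 0) Real.pi_pos.ne'
        positivity) (dist0_sq_coord (x - y) 0)
    simp only [hg, Pi.pow_apply, one_div, inv_pow]
    refine inv_anti₀ hd (pow_le_pow_left₀ (dist0_nonneg _) ?_ 2)
    linarith
  have hcs : ∀ f : V → Form, Continuous f → ∫ x, ‖f x‖ * g x ∂cubeVol ≤ l2 f * √M2 := by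
    intro f hf
    have h := integral_mul_sq_le (integrable_cube_of_continuous (hf.norm.pow 2))
      (integrable_cube_of_continuous (hgc.pow 2)) (integrable_cube_of_continuous (hf.norm.mul hgc))
    refine le_trans (Real.le_sqrt_of_sq_le h) ?_
    rw [Real.sqrt_mul (integral_nonneg fun _ => sq_nonneg _)]
    exact mul_le_mul_of_nonneg_left (Real.sqrt_le_sqrt hg2) (Real.sqrt_nonneg _)
  have hX : l2 (fun x => piP (S.J x) (D.Se r x)) ≤ Cc' * r * l2 (D.Se r) :=
    (hcomm r hr hre).trans (mul_le_mul_of_nonneg_right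
      (mul_le_mul_of_nonneg_right (le_max_left _ _) hr.le) (l2_nonneg _))
  have hi4 : Integrable (fun x => ‖piP (S.J x) (D.Se r x)‖ * g x) cubeVol :=
    integrable_cube_of_continuous (hP.norm.mul hgc)
  have hi5 : Integrable (fun x => ‖D.Se r x‖ * g x) cubeVol :=
    integrable_cube_of_continuous (hS.norm.mul hgc)
  have hup : |∫ x, q (D.Se r x) (a x) ∂cubeVol| ≤ C2 * l2 (D.Se r) := by
    refine abs_integral_le_integral_abs.trans ((integral_mono hSi.abs
      (((hi4.const_mul (2 / r)).add hi5).const_mul (6 * Cp * Ca)) hpt).trans ?_)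
    simp only [Pi.add_apply]
    rw [integral_const_mul, integral_add (hi4.const_mul _) hi5, integral_const_mul]
    have k1 := (hcs _ hP).trans (mul_le_mul_of_nonneg_right hX (Real.sqrt_nonneg _))
    have k2 := hcs _ hS
    calc 6 * Cp * Ca * (2 / r * ∫ x, ‖piP (S.J x) (D.Se r x)‖ * g x ∂cubeVol +
          ∫ x, ‖D.Se r x‖ * g x ∂cubeVol)
        ≤ 6 * Cp * Ca * (2 / r * (Cc' * r * l2 (D.Se r) * √M2) + l2 (D.Se r) * √M2) := by
          gcongr
      _ = C2 * l2 (D.Se r) := by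
          simp only [C2]; field_simp
  obtain ⟨hup1, hup2⟩ := abs_le.1 hup
  have hX0 : 0 ≤ l2 (D.Se r) := l2_nonneg _
  have hJ : 0 ≤ ∫ z, 1 / (r + dist0 (z - y)) ∂T.ν := integral_nonneg fun z => by
    have := dist0_nonneg (z - y)
    positivity
  have hC20 : 0 ≤ C2 := by rw [hC2]; positivity
  have p1 : 0 ≤ C1 * l2 (D.Se r) := mul_nonneg hC1.le hX0
  have p2 : 0 ≤ C2 * ∫ z, 1 / (r + dist0 (z - y)) ∂T.ν := mul_nonneg hC20 hJ
  rw [div_mul_eq_mul_div, le_div_iff₀ hc, mul_comm (T.dens r y), mul_add, add_mul, add_mul,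
    add_mul, add_mul]
  linarith

/-- The vanishing square bounds the anti-invariant part by the density. -/
lemma exists_sq (hu : q u u ≤ 0) : ∃ K ε₀, 0 < K ∧ 0 < ε₀ ∧ ε₀ ≤ 1 ∧ ∀ ε, 0 < ε → ε ≤ ε₀ → ∀ M, 0 ≤ M →
    (∀ y, T.dens ε y ≤ M) → l2 (D.Se ε) ^ 2 ≤ K * M := by
  obtain ⟨cA, hcA, hanti⟩ := S.exists_q_anti
  obtain ⟨Cp, hCp, hproj⟩ := S.exists_proj_bound
  obtain ⟨Cc, e0, he0, hcomm⟩ := D.comm
  obtain ⟨Ch, hCh, hh⟩ := T.exists_h_bound
  obtain ⟨Cm, hCm, hmove⟩ := S.exists_move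
  obtain ⟨Cl, hCl, hpair⟩ := S.exists_pair_lower
  obtain ⟨Cu, hCu, hup⟩ := exists_ker_upper 6
  set Cc' := max Cc 1
  have hCc' : 1 ≤ Cc' := le_max_right _ _
  set η := cA / (32 * Cc' ^ 2)
  have hη : 0 < η := by positivity
  set K0 := 6 + cA / 2
  set Ca := Cp * Ch * Cu
  set Cb := Cm * Cu
  set K1 := 36 * Ca ^ 2 / η + 72 * Cb ^ 2 / cA + 4 * Cl * Cu ^ 2
  have hK1 : 0 ≤ K1 := by positivity
  set ε1 := cA / (32 * K0 * Cc' ^ 2 + cA)
  refine ⟨16 / (3 * cA) * (K1 * (2 * 4 ^ 5 * phiMass * T.mass)) + 1,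
    min (min e0 1) ε1, ?_, lt_min (lt_min he0 one_pos) (by positivity),
    (min_le_left _ _).trans (min_le_right _ _), fun ε hε hεb M hM0 hM => ?_⟩
  · have := phiMass_pos; have := T.mass_nonneg
    positivity
  have hεe : ε ≤ e0 := hεb.trans ((min_le_left _ _).trans (min_le_left _ _))
  have hε1 : ε ≤ 1 := hεb.trans ((min_le_left _ _).trans (min_le_right _ _))
  have hεs : ε ≤ ε1 := hεb.trans (min_le_right _ _)
  have hS := D.continuous_Se hε hε1
  have hreg := continuous_reg (T := T) hε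
  have hker := continuous_ker hε
  have hkp := ker_periodic hε
  have hP : Continuous fun x => piP (S.J x) (D.Se ε x) := continuous_piP hS
  have hk5 : ∀ u, ker ε u ≤ Cu * (ε ^ 4)⁻¹ * phi ε u ^ 5 ∧
      ker ε u * dist0 u ≤ Cu * (ε ^ 3)⁻¹ * phi ε u ^ 5 ∧
      ker ε u * dist0 u ^ 2 ≤ Cu * (ε ^ 2)⁻¹ * phi ε u ^ 5 := by
    intro u
    have h := (hup ε hε hε1 u).1
    rw [env_eq] at h
    set φ := phi ε u
    set d := dist0 u
    have hφ0 : 0 ≤ φ := phi_nonneg _ _
    have hd : 0 ≤ d := dist0_nonneg _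
    have h5 : 0 ≤ Cu * (ε ^ 4)⁻¹ * φ ^ 5 := by positivity
    have e : ker ε u ≤ Cu * (ε ^ 4)⁻¹ * φ ^ 5 * φ := h.trans_eq (by ring)
    have hd2 : φ * d ^ 2 ≤ ε ^ 2 := by
      simp only [φ, phi]
      rw [div_mul_eq_mul_div, div_le_iff₀ (by positivity)]
      nlinarith [sq_nonneg ε, mul_nonneg (sq_nonneg ε) (sq_nonneg ε)]
    have hd1 : φ * d ≤ ε := by
      simp only [φ, phi]
      rw [div_mul_eq_mul_div, div_le_iff₀ (by positivity)]
      nlinarith [sq_nonneg (ε - d), mul_nonneg hε.le (sq_nonneg (ε - d)),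
        mul_nonneg (sq_nonneg ε) hd]
    refine ⟨e.trans (mul_le_of_le_one_right h5 (phi_le_one _ _)),
      (mul_le_mul_of_nonneg_right e hd).trans ?_,
      (mul_le_mul_of_nonneg_right e (sq_nonneg d)).trans ?_⟩
    · rw [mul_assoc _ φ]
      refine (mul_le_mul_of_nonneg_left hd1 h5).trans_eq ?_
      field_simp
    · rw [mul_assoc _ φ]
      refine (mul_le_mul_of_nonneg_left hd2 h5).trans_eq ?_
      field_simp
  have hTn : ∀ x, ‖T.reg ε x‖ ≤ Ch * Cu * ((ε ^ 4)⁻¹ * T.pot ε x) := fun x => by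
    refine (norm_integral_le_of_norm_le ((T.integrable_phi_sub' hε x 5).const_mul
      (Ch * Cu * (ε ^ 4)⁻¹)) (Filter.Eventually.of_forall fun z => ?_)).trans_eq ?_
    · rw [norm_smul, Real.norm_eq_abs, abs_of_nonneg (ker_nonneg hε _)]
      refine (mul_le_mul (hk5 _).1 (hh z) (norm_nonneg _)
        (le_trans (ker_nonneg hε _) (hk5 _).1)).trans_eq ?_
      ring
    · rw [integral_const_mul, Current.pot]; ring
  have hTm : ∀ x, ‖piM (S.J x) (T.reg ε x)‖ ≤ Cb * ((ε ^ 3)⁻¹ * T.pot ε x) := fun x => by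
    set P : Form →L[ℝ] Form := LinearMap.toContinuousLinearMap
      { toFun := fun h => piM (S.J x) h
        map_add' := fun h k => piM_add _ h k
        map_smul' := fun c h => by simp only [piM_smul, RingHom.id_apply] }
    have e : piM (S.J x) (T.reg ε x) = ∫ z, P (ker ε (x - z) • T.h z) ∂T.ν :=
      (P.integral_comp_comm (T.integrable_smooth_smul hker hkp x)).symm
    rw [e]
    refine (norm_integral_le_of_norm_le ((T.integrable_phi_sub' hε x 5).const_mul
      (Cm * Cu * (ε ^ 3)⁻¹)) (Filter.Eventually.of_forall fun z => ?_)).trans_eq ?_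
    · change ‖piM (S.J x) (ker ε (x - z) • T.h z)‖ ≤ _
      rw [piM_smul, norm_smul, Real.norm_eq_abs, abs_of_nonneg (ker_nonneg hε _)]
      refine (mul_le_mul_of_nonneg_left (hmove x z (T.h z) (T.psd z) (T.trace z)).2.1
        (ker_nonneg hε _)).trans ?_
      calc ker ε (x - z) * (Cm * dist0 (x - z)) = Cm * (ker ε (x - z) * dist0 (x - z)) := by ring
        _ ≤ Cm * (Cu * (ε ^ 3)⁻¹ * phi ε (x - z) ^ 5) :=
            mul_le_mul_of_nonneg_left (hk5 _).2.1 hCm.le
        _ = _ := by ring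
    · rw [integral_const_mul, Current.pot]; ring
  have hTT : ∀ x, -(4 * Cl * Cu ^ 2 * ((ε ^ 3)⁻¹ * T.pot ε x) ^ 2) ≤
      q (T.reg ε x) (T.reg ε x) := by
    intro x
    set A := Cu * (ε ^ 4)⁻¹
    set B := Cu * (ε ^ 2)⁻¹
    set P5 := fun z => phi ε (x - z) ^ 5
    have hP5 : ∀ z, 0 ≤ P5 z := fun z => pow_nonneg (phi_nonneg _ _) _
    have hiP : Integrable P5 T.ν := T.integrable_phi_sub' hε x 5
    have hpot : ∫ z, P5 z ∂T.ν = T.pot ε x := rfl
    have hp0 : 0 ≤ T.pot ε x := T.pot_nonneg ε x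
    have hi : ∀ w, Integrable (fun z => ker ε (x - z) * q (T.h z) (T.h w)) T.ν := fun w => by
      obtain ⟨Mk, hMk, hkM⟩ := exists_bound hker hkp
      refine T.integrable_bounded ((hker.comp (by fun_prop)).aestronglyMeasurable.mul
        ((Setup.continuous_q continuous_id continuous_const).measurable.comp
          T.meas).aestronglyMeasurable) (C := Mk * (6 * (Ch * Ch))) fun z => ?_
      rw [Real.norm_eq_abs, abs_mul]
      refine mul_le_mul ((Real.norm_eq_abs _).symm.trans_le (hkM _)) ((abs_q_le _ _).trans ?_)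
        (abs_nonneg _) hMk.le
      gcongr <;> apply hh
    have hin : ∀ w, -(4 * Cl * A * B * T.pot ε x * P5 w) ≤
        ker ε (x - w) * q (T.reg ε x) (T.h w) := fun w => by
      rw [Current.reg, T.q_smoothing hker hkp, ← integral_const_mul,
        show -(4 * Cl * A * B * T.pot ε x * P5 w) =
          ∫ z, -(4 * Cl * A * B * P5 w) * P5 z ∂T.ν by rw [integral_const_mul, hpot]; ring]
      refine integral_mono (hiP.const_mul _) ((hi w).const_mul _) fun z => ?_
      have h0 := hpair z w (T.h z) (T.h w) (T.psd z) (T.psd w) (T.trace z) (T.trace w)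
      have hkz := ker_nonneg hε (x - z)
      have hkw := ker_nonneg hε (x - w)
      have hd : dist0 (z - w) ^ 2 ≤ 2 * dist0 (x - z) ^ 2 + 2 * dist0 (x - w) ^ 2 := by
        have h1 := dist0_sub_le z x w
        rw [dist0_sub_comm z x] at h1
        have h2 := pow_le_pow_left₀ (dist0_nonneg _) h1 2
        nlinarith [sq_nonneg (dist0 (x - z) - dist0 (x - w))]
      obtain ⟨a1, -, a2⟩ := hk5 (x - z)
      obtain ⟨b1, -, b2⟩ := hk5 (x - w)
      have c1 : ker ε (x - w) * (ker ε (x - z) * dist0 (x - z) ^ 2) ≤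
          A * P5 w * (B * P5 z) :=
        mul_le_mul b1 a2 (by positivity) (le_trans hkw b1)
      have c2 : ker ε (x - z) * (ker ε (x - w) * dist0 (x - w) ^ 2) ≤
          A * P5 z * (B * P5 w) :=
        mul_le_mul a1 b2 (by positivity) (le_trans hkz a1)
      have hkk : 0 ≤ ker ε (x - w) * ker ε (x - z) := mul_nonneg hkw hkz
      have k1 := mul_le_mul_of_nonneg_left h0 hkk
      have k2 := mul_le_mul_of_nonneg_left hd (mul_nonneg hkk hCl.le)
      have k3 := mul_le_mul_of_nonneg_left (add_le_add c1 c2) (by positivity : 0 ≤ 2 * Cl)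
      simp only [mul_add] at k2 k3
      linarith
    have e : q (T.reg ε x) (T.reg ε x) =
        ∫ w, ker ε (x - w) * q (T.reg ε x) (T.h w) ∂T.ν :=
      (T.q_smoothing hker hkp (T.reg ε x) x).trans (integral_congr_ae
        (Filter.Eventually.of_forall fun w => by simp only; rw [q_comm (T.h w)]))
    have hiR : Integrable (fun w => ker ε (x - w) * q (T.reg ε x) (T.h w)) T.ν := by
      obtain ⟨Mk, hMk, hkM⟩ := exists_bound hker hkp
      refine T.integrable_bounded ((hker.comp (by fun_prop)).aestronglyMeasurable.mul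
        ((Setup.continuous_q continuous_const continuous_id).measurable.comp
          T.meas).aestronglyMeasurable) (C := Mk * (6 * (‖T.reg ε x‖ * Ch))) fun w => ?_
      rw [Real.norm_eq_abs, abs_mul]
      refine mul_le_mul ((Real.norm_eq_abs _).symm.trans_le (hkM _)) ((abs_q_le _ _).trans ?_)
        (abs_nonneg _) hMk.le
      gcongr
      exact hh w
    rw [e]
    refine le_trans (le_of_eq ?_)
      (integral_mono (hiP.const_mul (4 * Cl * A * B * T.pot ε x)).neg hiR hin)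
    simp only [Pi.neg_apply]
    rw [integral_neg, integral_const_mul, hpot]
    simp only [A, B]
    ring
  -- pointwise
  have hpt : ∀ x, cA / 4 * ‖D.Se ε x‖ ^ 2 ≤ q (D.Ue ε x) (D.Ue ε x) +
      (K0 + η / ε ^ 2) * ‖piP (S.J x) (D.Se ε x)‖ ^ 2 +
        K1 * ((ε ^ 3)⁻¹ * T.pot ε x) ^ 2 := by
    intro x
    set A := (ε ^ 3)⁻¹ * T.pot ε x
    set a := piP (S.J x) (D.Se ε x)
    set b := piM (S.J x) (D.Se ε x)
    set pT := piP (S.J x) (T.reg ε x)
    set mT := piM (S.J x) (T.reg ε x)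
    have hA0 : 0 ≤ A := by have := T.pot_nonneg ε x; positivity
    have e : q (D.Ue ε x) (D.Ue ε x) =
        q a a + q b b + 2 * q a pT + 2 * q b mT + q (T.reg ε x) (T.reg ε x) := by
      have : D.Ue ε x = D.Se ε x + T.reg ε x := by simp only [Se, sub_add_cancel]
      rw [this, q_add_left, q_add_right, q_add_right, q_comm (T.reg ε x) (D.Se ε x),
        S.q_decomp x (D.Se ε x) (D.Se ε x), S.q_decomp x (D.Se ε x) (T.reg ε x)]
      ring
    have ha := (abs_le.1 (abs_q_le a a)).1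
    have hb := hanti x b (S.piP_piM x _)
    have hpT : ‖pT‖ ≤ Ca * (A / ε) := by
      refine ((hproj x _).1.trans (mul_le_mul_of_nonneg_left (hTn x) hCp.le)).trans_eq ?_
      simp only [Ca, A]
      field_simp
    have h1 := (abs_le.1 ((abs_q_le a pT).trans
      (mul_le_mul_of_nonneg_left (mul_le_mul_of_nonneg_left hpT (norm_nonneg _))
        (by norm_num)))).1
    have h2 := (abs_le.1 ((abs_q_le b mT).trans
      (mul_le_mul_of_nonneg_left (mul_le_mul_of_nonneg_left (hTm x) (norm_nonneg _))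
        (by norm_num)))).1
    have h3 : 12 * (‖a‖ * (Ca * (A / ε))) ≤
        η / ε ^ 2 * ‖a‖ ^ 2 + 36 * Ca ^ 2 / η * A ^ 2 := by
      have := div_nonneg (sq_nonneg (η * ‖a‖ / ε - 6 * Ca * A)) hη.le
      have e2 : (η * ‖a‖ / ε - 6 * Ca * A) ^ 2 / η = η / ε ^ 2 * ‖a‖ ^ 2 -
          12 * (‖a‖ * (Ca * (A / ε))) + 36 * Ca ^ 2 / η * A ^ 2 := by
        field_simp; ring
      linarith
    have h4 : 12 * (‖b‖ * (Cb * A)) ≤ cA / 2 * ‖b‖ ^ 2 + 72 * Cb ^ 2 / cA * A ^ 2 := by
      have := div_nonneg (sq_nonneg (cA * ‖b‖ - 12 * Cb * A)) (by positivity : 0 ≤ 2 * cA)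
      have e2 : (cA * ‖b‖ - 12 * Cb * A) ^ 2 / (2 * cA) = cA / 2 * ‖b‖ ^ 2 -
          12 * (‖b‖ * (Cb * A)) + 72 * Cb ^ 2 / cA * A ^ 2 := by
        field_simp; ring
      linarith
    have h5 : ‖D.Se ε x‖ ^ 2 / 2 - ‖a‖ ^ 2 ≤ ‖b‖ ^ 2 := by
      have h0 : ‖D.Se ε x‖ ≤ ‖a‖ + ‖b‖ := by
        conv_lhs => rw [← piP_add_piM (S.J x) (D.Se ε x)]
        exact norm_add_le _ _
      have := pow_le_pow_left₀ (norm_nonneg _) h0 2
      nlinarith [sq_nonneg (‖a‖ - ‖b‖)]
    have h5' := mul_le_mul_of_nonneg_left h5 (by positivity : 0 ≤ cA / 2)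
    have hT := hTT x
    simp only [K0, K1]
    linarith
  have hU := D.Ue_cont ε hε hε1
  have hiS : Integrable (fun x => ‖D.Se ε x‖ ^ 2) cubeVol :=
    integrable_cube_of_continuous (hS.norm.pow 2)
  have hia : Integrable (fun x => ‖piP (S.J x) (D.Se ε x)‖ ^ 2) cubeVol :=
    integrable_cube_of_continuous (hP.norm.pow 2)
  have hiU : Integrable (fun x => q (D.Ue ε x) (D.Ue ε x)) cubeVol :=
    integrable_cube_of_continuous (Setup.continuous_q hU hU)
  have hiA : Integrable (fun x => ((ε ^ 3)⁻¹ * T.pot ε x) ^ 2) cubeVol :=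
    integrable_cube_of_continuous ((continuous_const.mul (T.continuous_pot hε)).pow 2)
  have h := integral_mono (hiS.const_mul (cA / 4))
    ((hiU.add (hia.const_mul (K0 + η / ε ^ 2))).add (hiA.const_mul K1)) hpt
  simp only [Pi.add_apply] at h
  rw [integral_const_mul, integral_add (hiU.fun_add (hia.const_mul _)) (hiA.const_mul _),
    integral_add hiU (hia.const_mul _), integral_const_mul, integral_const_mul,
    show ∫ x, q (D.Ue ε x) (D.Ue ε x) ∂cubeVol = q u u from D.Ue_q ε hε hε1,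
    ← l2_sq, ← l2_sq] at h
  set X := l2 (D.Se ε)
  have hXa : l2 (fun x => piP (S.J x) (D.Se ε x)) ^ 2 ≤ (Cc' * ε * X) ^ 2 :=
    pow_le_pow_left₀ (l2_nonneg _) ((hcomm ε hε hεe).trans (mul_le_mul_of_nonneg_right
      (mul_le_mul_of_nonneg_right (le_max_left _ _) hε.le) (l2_nonneg _))) 2
  have h6 := mul_le_mul_of_nonneg_left hXa (by positivity : 0 ≤ K0 + η / ε ^ 2)
  have h7 : (K0 + η / ε ^ 2) * (Cc' * ε * X) ^ 2 ≤ cA / 16 * X ^ 2 := by
    have e1 : η / ε ^ 2 * (Cc' * ε * X) ^ 2 = cA / 32 * X ^ 2 := by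
      simp only [η]; field_simp
    have e2 : K0 * Cc' ^ 2 * ε ^ 2 ≤ cA / 32 := by
      have hd : 0 < 32 * K0 * Cc' ^ 2 + cA := by positivity
      have := (le_div_iff₀ hd).1 hεs
      have := mul_le_mul_of_nonneg_left (pow_le_of_le_one hε.le hε1 two_ne_zero)
        (by positivity : 0 ≤ K0 * Cc' ^ 2)
      have := mul_pos hε hcA
      linarith
    have := mul_le_mul_of_nonneg_right e2 (sq_nonneg X)
    rw [add_mul, e1]
    linarith
  have h8 : ∫ x, ((ε ^ 3)⁻¹ * T.pot ε x) ^ 2 ∂cubeVol ≤ 2 * 4 ^ 5 * phiMass * T.mass * M := by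
    simp only [mul_pow]
    rw [integral_const_mul]
    refine (mul_le_mul_of_nonneg_left (T.integral_pot_sq_le hε hM) (by positivity)).trans_eq ?_
    field_simp
  have h9 := mul_le_mul_of_nonneg_left h8 hK1
  have h10 : X ^ 2 ≤ 16 / (3 * cA) * (K1 * (2 * 4 ^ 5 * phiMass * T.mass * M)) := by
    rw [div_mul_eq_mul_div, le_div_iff₀ (by positivity)]
    linarith
  linarith

/-- The density is bounded at all scales, and so is the anti-invariant part. -/
lemma exists_both (hu : q u u ≤ 0) : ∃ C Cs ε₀, 0 < ε₀ ∧ (∀ r, 0 < r → r ≤ 1 → ∀ y, T.dens r y ≤ C) ∧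
    ∀ ε, 0 < ε → ε ≤ ε₀ → l2 (D.Se ε) ≤ Cs := by
  obtain ⟨C, e1, hC, he1, he11, hmono⟩ := D.exists_mono
  obtain ⟨K, e2, hK, he2, -, hsq⟩ := D.exists_sq hu
  set R := min (min e1 e2) (1 / (64 * C))
  have hR : 0 < R := lt_min (lt_min he1 he2) (by positivity)
  have hR1 : R ≤ e1 := (min_le_left _ _).trans (min_le_left _ _)
  have hR2 : R ≤ e2 := (min_le_left _ _).trans (min_le_right _ _)
  have hR3 : 64 * C * R ≤ 1 := by
    have := min_le_right (min e1 e2) (1 / (64 * C))
    rw [mul_comm, ← le_div_iff₀ (by positivity)]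
    exact this
  set Bd := 4 * (C * (2 * T.mass / R)) + 4 * C ^ 2 * K
  have hm := T.mass_nonneg
  have hBd : 0 ≤ Bd := by positivity
  have key : ∀ r, 0 < r → r ≤ R → ∀ y, T.dens r y ≤ Bd := by
    intro r hr hrR
    set A : Set ℝ := {d | ∃ ρ y, r ≤ ρ ∧ ρ ≤ R ∧ T.dens ρ y = d}
    have hne : A.Nonempty := ⟨_, r, 0, le_rfl, hrR, rfl⟩
    have hbd : BddAbove A := ⟨T.mass / r ^ 2, by
      rintro d ⟨ρ, y, h1, -, rfl⟩
      exact (T.dens_le_mass (hr.trans_le h1) y).trans
        (div_le_div_of_nonneg_left hm (by positivity) (pow_le_pow_left₀ hr.le h1 2))⟩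
    set s := sSup A
    have hs : ∀ ρ, r ≤ ρ → ρ ≤ R → ∀ y, T.dens ρ y ≤ s :=
      fun ρ h1 h2 y => le_csSup hbd ⟨ρ, y, h1, h2, rfl⟩
    have hs0 : 0 ≤ s := (T.dens_nonneg r 0).trans (hs r le_rfl hrR 0)
    have hstep : ∀ d ∈ A, d ≤ C * (2 * T.mass / R + 16 * R * s + √(K * s)) := by
      rintro d ⟨ρ, y, h1, h2, rfl⟩
      have hρ := hr.trans_le h1
      refine (hmono ρ hρ (h2.trans hR1) y).trans ?_
      gcongr
      · exact T.inv_potential_le hρ h2 (fun σ k1 k2 => hs σ (h1.trans k1) k2) hs0 y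
      · exact Real.le_sqrt_of_sq_le (hsq ρ hρ (h2.trans hR2) s hs0 (hs ρ h1 h2))
    have hle : s ≤ C * (2 * T.mass / R + 16 * R * s + √(K * s)) := csSup_le hne hstep
    have h1 := mul_le_mul_of_nonneg_right hR3 hs0
    have h2 : C * √(K * s) ≤ C ^ 2 * K + s / 4 := by
      have h3 := Real.sq_sqrt (mul_nonneg hK.le hs0)
      rcases le_or_gt (√(K * s)) (C * K) with h4 | h4
      · have := mul_le_mul_of_nonneg_left h4 hC.le
        linarith
      · nlinarith [sq_nonneg (√(K * s) - 2 * C * K), mul_pos hC hK]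
    intro y
    refine (hs r le_rfl hrR y).trans ?_
    simp only [Bd]
    linarith
  refine ⟨Bd + T.mass / R ^ 2, √(K * Bd), R, hR, fun r hr _ y => ?_,
    fun ε hε hεR => Real.le_sqrt_of_sq_le (hsq ε hε (hεR.trans hR2) Bd hBd (key ε hε hεR))⟩
  have : 0 ≤ T.mass / R ^ 2 := by positivity
  rcases le_total r R with h | h
  · linarith [key r hr h y]
  · linarith [(T.dens_le_mass hr y).trans
      (div_le_div_of_nonneg_left hm (by positivity) (pow_le_pow_left₀ hR.le h 2))]

include D in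
theorem exists_dens_bound (hu : q u u ≤ 0) : ∃ C, ∀ r, 0 < r → r ≤ 1 → ∀ y, T.dens r y ≤ C :=
  let ⟨C, _, _, _, h, _⟩ := D.exists_both hu
  ⟨C, h⟩

theorem bounded (hu : q u u ≤ 0) : D.Bounded :=
  let ⟨_, Cs, e, he, _, h⟩ := D.exists_both hu
  ⟨Cs, e, he, h⟩


end CData

end Vale.Agent.P247.Ortho
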